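import Vale.Agent.P092.H432.TA.Spec

/-!
P092 (helper231), TEAM C, block [C-SEC], part 1: families of operators `a : S → B(E)` which
intertwine a set of operators between the fibres, realised as block diagonal operators on
`ℓ²(S; E)`; spectral lemmas for such families.
-/

set_option autoImplicit false

namespace Vale.Agent.P092.H231

open scoped InnerProductSpace ENNReal
open ContinuousLinearMap H432.TA

variable {S E : Type*} [NormedAddCommGroup E] [InnerProductSpace ℂ E] [CompleteSpace E]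

/-- The bounded families `a : S → B(E)` with `a s' T = T a s` (and `a s T* = T* a s'`) for all
related `(s, s', T)`. -/
def Com (R : S → S → (E →L[ℂ] E) → Prop) : StarSubalgebra ℂ (S → (E →L[ℂ] E)) where
  carrier := {a | (∃ C : ℝ, 0 ≤ C ∧ ∀ s, ‖a s‖ ≤ C) ∧ ∀ s s' T, R s s' T →
    a s' * T = T * a s ∧ a s * star T = star T * a s'}
  mul_mem' := by
    rintro a b ⟨⟨C, hC0, hC⟩, h1⟩ ⟨⟨D, hD0, hD⟩, h2⟩
    refine ⟨⟨C * D, mul_nonneg hC0 hD0, fun s => ?_⟩, fun s s' T hT => ?_⟩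
    · exact (norm_mul_le _ _).trans (mul_le_mul (hC s) (hD s) (norm_nonneg _) hC0)
    · obtain ⟨h3, h4⟩ := h1 s s' T hT
      obtain ⟨h5, h6⟩ := h2 s s' T hT
      refine ⟨?_, ?_⟩
      · rw [Pi.mul_apply, Pi.mul_apply, mul_assoc, h5, ← mul_assoc, h3, mul_assoc]
      · rw [Pi.mul_apply, Pi.mul_apply, mul_assoc, h6, ← mul_assoc, h4, mul_assoc]
  one_mem' := ⟨⟨‖(1 : E →L[ℂ] E)‖, norm_nonneg _, fun s => le_rfl⟩, fun s s' T _ => by simp⟩
  add_mem' := by
    rintro a b ⟨⟨C, hC0, hC⟩, h1⟩ ⟨⟨D, hD0, hD⟩, h2⟩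
    refine ⟨⟨C + D, add_nonneg hC0 hD0, fun s => ?_⟩, fun s s' T hT => ?_⟩
    · exact (norm_add_le _ _).trans (add_le_add (hC s) (hD s))
    · obtain ⟨h3, h4⟩ := h1 s s' T hT
      obtain ⟨h5, h6⟩ := h2 s s' T hT
      refine ⟨?_, ?_⟩
      · rw [Pi.add_apply, Pi.add_apply, add_mul, mul_add, h3, h5]
      · rw [Pi.add_apply, Pi.add_apply, add_mul, mul_add, h4, h6]
  zero_mem' := ⟨⟨0, le_rfl, fun s => by simp⟩, fun s s' T _ => by simp⟩
  algebraMap_mem' := by
    intro c
    refine ⟨⟨‖c‖ * ‖(1 : E →L[ℂ] E)‖, by positivity, fun s => ?_⟩, fun s s' T _ => ?_⟩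
    · rw [Pi.algebraMap_apply, Algebra.algebraMap_eq_smul_one]
      exact norm_smul_le _ _
    · rw [Pi.algebraMap_apply, Pi.algebraMap_apply]
      exact ⟨Algebra.commutes c T, Algebra.commutes c _⟩
  star_mem' := by
    rintro a ⟨⟨C, hC0, hC⟩, h1⟩
    refine ⟨⟨C, hC0, fun s => ?_⟩, fun s s' T hT => ?_⟩
    · rw [Pi.star_apply, norm_star]; exact hC s
    · obtain ⟨h3, h4⟩ := h1 s s' T hT
      refine ⟨?_, ?_⟩
      · have := congrArg star h4
        rw [star_mul, star_mul, star_star] at this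
        rw [Pi.star_apply, Pi.star_apply]
        exact this.symm
      · have := congrArg star h3
        rw [star_mul, star_mul] at this
        rw [Pi.star_apply, Pi.star_apply]
        exact this.symm

theorem mem_Com {R : S → S → (E →L[ℂ] E) → Prop} {a : S → (E →L[ℂ] E)} :
    a ∈ Com R ↔ (∃ C : ℝ, 0 ≤ C ∧ ∀ s, ‖a s‖ ≤ C) ∧ ∀ s s' T, R s s' T →
      a s' * T = T * a s ∧ a s * star T = star T * a s' := Iff.rfl

theorem Com_anti {R R' : S → S → (E →L[ℂ] E) → Prop} (h : ∀ s s' T, R s s' T → R' s s' T)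
    {a : S → (E →L[ℂ] E)} (ha : a ∈ Com R') : a ∈ Com R :=
  ⟨ha.1, fun s s' T hT => ha.2 s s' T (h s s' T hT)⟩

/-! ### The Hilbert space `ℓ²(S; E)` -/

section HS


/-- the block diagonal operator of a bounded family -/
theorem exists_diag (a : S → (E →L[ℂ] E)) (h : ∃ C : ℝ, 0 ≤ C ∧ ∀ s, ‖a s‖ ≤ C) :
    ∃ D : (lp (fun _ : S => E) 2) →L[ℂ] (lp (fun _ : S => E) 2), ∀ (f : (lp (fun _ : S => E) 2)) s, (D f : S → E) s = a s ((f : S → E) s) := by
  obtain ⟨C, hC0, hC⟩ := h
  have h2 : (0 : ℝ) < (2 : ℝ≥0∞).toReal := by norm_num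
  have hle : ∀ (f : (lp (fun _ : S => E) 2)) s, ‖a s ((f : S → E) s)‖ ^ (2 : ℝ≥0∞).toReal ≤
      C ^ (2 : ℝ≥0∞).toReal * ‖(f : S → E) s‖ ^ (2 : ℝ≥0∞).toReal := by
    intro f s
    rw [← Real.mul_rpow hC0 (norm_nonneg _)]
    refine Real.rpow_le_rpow (norm_nonneg _) ?_ h2.le
    exact ((a s).le_opNorm _).trans (mul_le_mul_of_nonneg_right (hC s) (norm_nonneg _))
  have hmem : ∀ f : (lp (fun _ : S => E) 2), Memℓp (fun s => a s ((f : S → E) s)) 2 := by
    intro f
    refine (memℓp_gen_iff h2).2 ?_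
    have h3 : Summable fun s => C ^ (2 : ℝ≥0∞).toReal * ‖(f : S → E) s‖ ^ (2 : ℝ≥0∞).toReal :=
      ((lp.memℓp f).summable h2).mul_left _
    exact Summable.of_nonneg_of_le (fun s => by positivity) (hle f) h3
  let L : (lp (fun _ : S => E) 2) →ₗ[ℂ] (lp (fun _ : S => E) 2) :=
    { toFun := fun f => ⟨fun s => a s ((f : S → E) s), hmem f⟩
      map_add' := fun f g => by
        apply lp.ext
        funext s
        exact map_add (a s) _ _
      map_smul' := fun c f => by
        apply lp.ext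
        funext s
        exact map_smul (a s) c _ }
  refine ⟨L.mkContinuous C fun f => ?_, fun f s => rfl⟩
  refine lp.norm_le_of_tsum_le h2 (by positivity) ?_
  rw [Real.mul_rpow hC0 (norm_nonneg _), lp.norm_rpow_eq_tsum h2 f, ← tsum_mul_left]
  refine Summable.tsum_le_tsum (hle f) ?_ ?_
  · exact ((lp.memℓp (L f)).summable h2)
  · exact ((lp.memℓp f).summable h2).mul_left _

variable [DecidableEq S]

/-- the elementary operator from the fibre `s` to the fibre `s'` -/
noncomputable def El (s s' : S) (T : E →L[ℂ] E) : (lp (fun _ : S => E) 2) →L[ℂ] (lp (fun _ : S => E) 2) :=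
  (lp.singleContinuousLinearMap ℂ (fun _ : S => E) 2 s').comp
    (T.comp (lp.evalCLM ℂ (fun _ : S => E) 2 s))

theorem El_apply (s s' : S) (T : E →L[ℂ] E) (f : (lp (fun _ : S => E) 2)) :
    El s s' T f = lp.single 2 s' (T ((f : S → E) s)) := rfl

theorem adjoint_El (s s' : S) (T : E →L[ℂ] E) : adjoint (El s s' T) = El s' s (adjoint T) := by
  symm
  rw [eq_adjoint_iff]
  intro f g
  rw [El_apply, El_apply, lp.inner_single_left, lp.inner_single_right, adjoint_inner_left]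

/-- the set of operators on `ℓ²(S; E)` defined by `R` -/
def XR (R : S → S → (E →L[ℂ] E) → Prop) : Set ((lp (fun _ : S => E) 2) →L[ℂ] (lp (fun _ : S => E) 2)) :=
  {w | ∃ s s' T, (R s s' T ∨ R s' s (adjoint T) ∨ (s = s' ∧ T = 1)) ∧ w = El s s' T}

theorem XR_adj {R : S → S → (E →L[ℂ] E) → Prop} : ∀ w ∈ XR R, adjoint w ∈ XR R := by
  rintro w ⟨s, s', T, h, rfl⟩
  refine ⟨s', s, adjoint T, ?_, adjoint_El s s' T⟩
  rcases h with h | h | ⟨h, h'⟩
  · right; left
    rwa [adjoint_adjoint]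
  · left; exact h
  · right; right
    refine ⟨h.symm, ?_⟩
    rw [h']
    exact star_one _

theorem diag_comm {R : S → S → (E →L[ℂ] E) → Prop} {a : S → (E →L[ℂ] E)} (ha : a ∈ Com R)
    {D : (lp (fun _ : S => E) 2) →L[ℂ] (lp (fun _ : S => E) 2)} (hD : ∀ (f : (lp (fun _ : S => E) 2)) s, (D f : S → E) s = a s ((f : S → E) s)) :
    ∀ w ∈ XR R, w * D = D * w := by
  rintro w ⟨s, s', T, h, rfl⟩
  have h1 : T * a s = a s' * T := by
    rcases h with h | h | ⟨h, h'⟩
    · exact (ha.2 s s' T h).1.symm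
    · have := (ha.2 s' s _ h).2
      rw [star_eq_adjoint, adjoint_adjoint] at this
      exact this.symm
    · rw [h, h', one_mul, mul_one]
  ext1 f
  change El s s' T (D f) = D (El s s' T f)
  apply lp.ext
  funext t
  rw [hD, El_apply, El_apply, lp.coeFn_single, lp.coeFn_single, hD]
  by_cases ht : t = s'
  · subst ht
    rw [Pi.single_eq_same, Pi.single_eq_same]
    exact congrArg (fun A : E →L[ℂ] E => A ((f : S → E) s)) h1
  · rw [Pi.single_eq_of_ne ht, Pi.single_eq_of_ne ht, map_zero]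

/-- the diagonal blocks of an operator -/
noncomputable def fam (x : (lp (fun _ : S => E) 2) →L[ℂ] (lp (fun _ : S => E) 2)) (s : S) : E →L[ℂ] E :=
  (lp.evalCLM ℂ (fun _ : S => E) 2 s).comp
    (x.comp (lp.singleContinuousLinearMap ℂ (fun _ : S => E) 2 s))

theorem fam_apply (x : (lp (fun _ : S => E) 2) →L[ℂ] (lp (fun _ : S => E) 2)) (s : S) (ξ : E) :
    fam x s ξ = (x (lp.single 2 s ξ) : S → E) s := rfl

theorem apply_eq_fam {R : S → S → (E →L[ℂ] E) → Prop} {x : (lp (fun _ : S => E) 2) →L[ℂ] (lp (fun _ : S => E) 2)}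
    (hx : ∀ w ∈ XR R, w * x = x * w) (f : (lp (fun _ : S => E) 2)) (s : S) :
    (x f : S → E) s = fam x s ((f : S → E) s) := by
  have h1 := hx (El s s 1) ⟨s, s, 1, Or.inr (Or.inr ⟨rfl, rfl⟩), rfl⟩
  have h2 := congrArg (fun A : (lp (fun _ : S => E) 2) →L[ℂ] (lp (fun _ : S => E) 2) => (A f : S → E) s) h1
  change (El s s 1 (x f) : S → E) s = (x (El s s 1 f) : S → E) s at h2
  rw [El_apply, El_apply, lp.coeFn_single, Pi.single_eq_same] at h2
  exact h2

theorem fam_mem {R : S → S → (E →L[ℂ] E) → Prop} {x : (lp (fun _ : S => E) 2) →L[ℂ] (lp (fun _ : S => E) 2)}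
    (hx : ∀ w ∈ XR R, w * x = x * w) : fam x ∈ Com R := by
  have key : ∀ s s' T, El s s' T ∈ XR (E := E) R → fam x s' * T = T * fam x s := by
    intro s s' T hT
    ext1 ξ
    have h1 := hx _ hT
    have h2 := congrArg (fun A : (lp (fun _ : S => E) 2) →L[ℂ] (lp (fun _ : S => E) 2) => (A (lp.single 2 s ξ) : S → E) s') h1
    change (El s s' T (x (lp.single 2 s ξ)) : S → E) s' =
      (x (El s s' T (lp.single 2 s ξ)) : S → E) s' at h2
    rw [El_apply, El_apply, lp.single_apply_self, lp.single_apply_self] at h2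
    exact h2.symm
  refine ⟨⟨‖x‖, norm_nonneg _, fun s => ?_⟩, fun s s' T hT => ⟨?_, ?_⟩⟩
  · refine opNorm_le_bound _ (norm_nonneg _) fun ξ => ?_
    rw [fam_apply]
    refine (lp.norm_apply_le_norm (by norm_num) _ s).trans ?_
    refine (x.le_opNorm _).trans ?_
    rw [lp.norm_single (by norm_num)]
  · exact key s s' T ⟨s, s', T, Or.inl hT, rfl⟩
  · exact key s' s (star T) ⟨s', s, _, Or.inr (Or.inl (by
      rw [star_eq_adjoint, adjoint_adjoint]; exact hT)), rfl⟩

theorem diag_eq_fam {a : S → (E →L[ℂ] E)} {D : (lp (fun _ : S => E) 2) →L[ℂ] (lp (fun _ : S => E) 2)}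
    (hD : ∀ (f : (lp (fun _ : S => E) 2)) s, (D f : S → E) s = a s ((f : S → E) s)) : fam D = a := by
  funext s
  ext1 ξ
  rw [fam_apply, hD, lp.single_apply_self]

theorem fam_mul {R : S → S → (E →L[ℂ] E) → Prop} {x y : (lp (fun _ : S => E) 2) →L[ℂ] (lp (fun _ : S => E) 2)}
    (hx : ∀ w ∈ XR R, w * x = x * w) : fam (x * y) = fam x * fam y := by
  funext s
  ext1 ξ
  change (x (y (lp.single 2 s ξ)) : S → E) s = fam x s (fam y s ξ)
  rw [apply_eq_fam hx]
  rfl

theorem fam_star (x : (lp (fun _ : S => E) 2) →L[ℂ] (lp (fun _ : S => E) 2)) : fam (star x) = star (fam x) := by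
  funext s
  rw [Pi.star_apply]
  symm
  rw [star_eq_adjoint, star_eq_adjoint]
  refine (eq_adjoint_iff _ _).2 ?_ |>.symm
  intro ξ η
  rw [fam_apply, fam_apply]
  have h1 := lp.inner_single_right (𝕜 := ℂ) s η (adjoint x (lp.single 2 s ξ))
  have h2 := lp.inner_single_left (𝕜 := ℂ) s ξ (x (lp.single 2 s η))
  rw [← h1, ← h2, adjoint_inner_left]

theorem fam_inj {R : S → S → (E →L[ℂ] E) → Prop} {x y : (lp (fun _ : S => E) 2) →L[ℂ] (lp (fun _ : S => E) 2)}
    (hx : ∀ w ∈ XR R, w * x = x * w) (hy : ∀ w ∈ XR R, w * y = y * w) (h : fam x = fam y) :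
    x = y := by
  ext1 f
  apply lp.ext
  funext s
  rw [apply_eq_fam hx, apply_eq_fam hy, h]

end HS

/-- **Spectral lemma for families**: if a projection `e` of the algebra `Com R` has no proper
nonzero subprojection in `Com R`, then `e x e` is a scalar multiple of `e` for all `x`. -/
theorem fspec {R : S → S → (E →L[ℂ] E) → Prop} {e : S → (E →L[ℂ] E)} (he : e ∈ Com R)
    (hid : e * e = e) (hsa : star e = e)
    (hmin : ∀ q ∈ Com R, q * q = q → star q = q → e * q = q → q = 0 ∨ q = e)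
    {x : S → (E →L[ℂ] E)} (hx : x ∈ Com R) : ∃ c : ℂ, e * x * e = c • e := by
  classical
  obtain ⟨De, hDe⟩ := exists_diag e he.1
  obtain ⟨Dx, hDx⟩ := exists_diag x hx.1
  have hce := diag_comm he hDe
  have hcx := diag_comm hx hDx
  have hfe : fam De = e := diag_eq_fam hDe
  have hfx : fam Dx = x := diag_eq_fam hDx
  have hcee : ∀ w ∈ XR R, w * (De * De) = De * De * w := fun w hw => by
    rw [← mul_assoc, hce w hw, mul_assoc, hce w hw, ← mul_assoc]
  have hces : ∀ w ∈ XR R, w * star De = star De * w := fun w hw => by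
    have h1 := congrArg star (hce _ (XR_adj w hw))
    rw [star_mul, star_mul] at h1
    have h2 : star (adjoint w) = w := adjoint_adjoint w
    rw [h2] at h1
    exact h1.symm
  have hP : Prj De := by
    refine ⟨fam_inj hcee hce ?_, ?_⟩
    · rw [fam_mul hce, hfe, hid]
    · show star De = De
      exact fam_inj hces hce (by rw [fam_star, hfe, hsa])
  obtain ⟨c, hc⟩ := spec (XR R) XR_adj De hP hce (fun q hq hqp heq => by
    have h1 := fam_mem hq
    have h2 : fam q * fam q = fam q := by rw [← fam_mul hq, hqp.idem]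
    have h3 : star (fam q) = fam q := by
      rw [← fam_star]; exact congrArg fam hqp.adj
    have h4 : e * fam q = fam q := by
      rw [← hfe, ← fam_mul hce, heq]
    have h0 : ∀ w ∈ XR R, w * (0 : lp (fun _ : S => E) 2 →L[ℂ] lp (fun _ : S => E) 2) = 0 * w :=
      fun w _ => by rw [mul_zero, zero_mul]
    rcases hmin _ h1 h2 h3 h4 with h5 | h5
    · left
      refine fam_inj hq h0 ?_
      rw [h5]
      rfl
    · right
      exact fam_inj hq hce (by rw [h5, hfe])) Dx hcx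
  refine ⟨c, ?_⟩
  have h6 := congrArg fam hc
  have hcex : ∀ w ∈ XR R, w * (De * Dx) = De * Dx * w := fun w hw => by
    rw [← mul_assoc, hce w hw, mul_assoc, hcx w hw, ← mul_assoc]
  rw [fam_mul hcex, fam_mul hce, hfe, hfx] at h6
  rw [h6]
  funext s
  rw [← hfe]
  rfl

/-! ### Spectral projections of positive operators -/

/-- A nonzero positive operator dominates a positive multiple of a nonzero projection which
commutes with everything that commutes with the operator. -/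
theorem exists_prj_le {H : Type*} [NormedAddCommGroup H] [InnerProductSpace ℂ H] [CompleteSpace H]
    {y : H →L[ℂ] H} (hy : y.IsPositive) (hne : y ≠ 0) :
    ∃ ε : ℝ, 0 < ε ∧ ∃ q : H →L[ℂ] H, Prj q ∧ q ≠ 0 ∧
      (∀ w, w * y = y * w → adjoint w * y = y * adjoint w → w * q = q * w) ∧
      ∀ ξ, ε * ‖q ξ‖ ^ 2 ≤ (⟪y ξ, ξ⟫_ℂ).re := by
  obtain ⟨ξ₀, hξ₀⟩ : ∃ ξ, (⟪y ξ, ξ⟫_ℂ).re ≠ 0 := by
    by_contra hcon
    push Not at hcon
    apply hne
    have h1 : ∀ ξ, ⟪y ξ, ξ⟫_ℂ = 0 := by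
      intro ξ
      have h2 := (isPositive_iff_complex y).1 hy ξ
      rw [← h2.1]
      have h3 : RCLike.re ⟪y ξ, ξ⟫_ℂ = 0 := hcon ξ
      rw [h3]; simp
    ext1 ξ
    have := (inner_map_self_eq_zero (y : H →ₗ[ℂ] H)).1 h1
    exact congrArg (fun T : H →ₗ[ℂ] H => T ξ) this
  have hpos0 : 0 < (⟪y ξ₀, ξ₀⟫_ℂ).re :=
    lt_of_le_of_ne (hy.re_inner_nonneg_left ξ₀) (Ne.symm hξ₀)
  set ε : ℝ := (⟪y ξ₀, ξ₀⟫_ℂ).re / (2 * (‖ξ₀‖ ^ 2 + 1)) with hε
  have hε0 : 0 < ε := by positivity
  have hysa : IsSelfAdjoint y := hy.isSelfAdjoint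
  have hsc : IsSelfAdjoint ((ε : ℂ) • (1 : H →L[ℂ] H)) := by
    rw [IsSelfAdjoint, star_smul, star_one]
    simp
  obtain ⟨P, N, hP, hN, hPN, hNP, hdec, hcP, hcN⟩ := exists_pos_neg _ (hysa.sub hsc)
  set K := (LinearMap.range (P : H →ₗ[ℂ] H)).topologicalClosure with hK
  have hq := prj_starProjection K
  have hdw : ∀ w : H →L[ℂ] H, w * y = y * w →
      w * (y - (ε : ℂ) • (1 : H →L[ℂ] H)) = (y - (ε : ℂ) • (1 : H →L[ℂ] H)) * w := by
    intro w hw
    rw [mul_sub, sub_mul, hw, mul_smul_comm, smul_mul_assoc, mul_one, one_mul]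
  have hcomm : ∀ w, w * y = y * w → adjoint w * y = y * adjoint w →
      w * K.starProjection = K.starProjection * w := fun w h1 h2 =>
    comm_rangeProj _ w (hcP _ (hdw w h1)) (hcP _ (hdw _ h2))
  have hPne : P ≠ 0 := by
    intro h0
    have h1 : y ξ₀ - (ε : ℂ) • ξ₀ = - N ξ₀ := by
      have h1 := congrArg (fun T : H →L[ℂ] H => T ξ₀) hdec
      rw [h0, zero_sub] at h1
      exact h1
    have h2 : (⟪N ξ₀, ξ₀⟫_ℂ).re ≥ 0 := hN.re_inner_nonneg_left ξ₀
    have h3 : ⟪(ε : ℂ) • ξ₀, ξ₀⟫_ℂ = ((ε * ‖ξ₀‖ ^ 2 : ℝ) : ℂ) := by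
      rw [inner_smul_left, inner_self_eq_norm_sq_to_K, Complex.conj_ofReal]
      push_cast
      rfl
    have h1' := congrArg (fun v : H => (⟪v, ξ₀⟫_ℂ).re) h1
    simp only [inner_sub_left, inner_neg_left, Complex.sub_re, Complex.neg_re, h3,
      Complex.ofReal_re] at h1'
    have h4 : ε * ‖ξ₀‖ ^ 2 < (⟪y ξ₀, ξ₀⟫_ℂ).re := by
      rw [hε, div_mul_eq_mul_div, div_lt_iff₀ (by positivity)]
      nlinarith [hpos0, sq_nonneg ‖ξ₀‖]
    linarith
  have hqP : K.starProjection * P = P := by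
    ext1 ξ
    exact K.starProjection_eq_self_iff.2 (Submodule.le_topologicalClosure _ ⟨ξ, rfl⟩)
  have hPq : P * K.starProjection = P := by
    have := congrArg star hqP
    rw [star_mul, show star P = P from hP.isSelfAdjoint, show star K.starProjection = _ from hq.adj]
      at this
    exact this
  have hNq : N * K.starProjection = 0 := by
    ext1 ξ
    change N (K.starProjection ξ) = 0
    have h10 : ∀ η ∈ K, N η = 0 := by
      intro η hη
      have hcl : IsClosed {η : H | N η = 0} := isClosed_eq N.continuous continuous_const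
      have hsub : (LinearMap.range (P : H →ₗ[ℂ] H) : Set H) ⊆ {η : H | N η = 0} := by
        rintro _ ⟨ζ, rfl⟩
        exact congrArg (fun T : H →L[ℂ] H => T ζ) hNP
      exact closure_minimal hsub hcl hη
    exact h10 _ (K.starProjection_apply_mem ξ)
  refine ⟨ε, hε0, K.starProjection, hq, ?_, hcomm, fun ξ => ?_⟩
  · intro h0
    rw [h0, zero_mul] at hqP
    exact hPne hqP.symm
  · -- `y = q y q + (1-q) y (1-q)`
    set q := K.starProjection with hqdef
    have hyq : q * y = y * q := (hcomm y rfl (by rw [show adjoint y = y from hysa])).symm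
    have h1 : y * q = P * q + (ε : ℂ) • q := by
      have h2 : y = (P - N) + (ε : ℂ) • (1 : H →L[ℂ] H) := by rw [← hdec]; abel
      calc y * q = ((P - N) + (ε : ℂ) • (1 : H →L[ℂ] H)) * q := by rw [← h2]
        _ = P * q - N * q + (ε : ℂ) • q := by rw [add_mul, sub_mul, smul_mul_assoc, one_mul]
        _ = P * q + (ε : ℂ) • q := by rw [hNq, sub_zero]
    have h3 : ∀ ζ, y ζ = P ζ + (ε : ℂ) • q ζ + (1 - q) (y ((1 - q) ζ)) := by
      intro ζ
      have h4 : y = P + (ε : ℂ) • q + (1 - q) * y * (1 - q) := by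
        have h5 : (1 - q) * y * (1 - q) = y - y * q := by
          have h6 : (1 - q) * y = y * (1 - q) := by rw [sub_mul, mul_sub, one_mul, mul_one, hyq]
          have h77 : (1 - q) * (1 - q) = 1 - q := by
            rw [mul_sub, mul_one, sub_mul, one_mul, hq.idem, sub_self, sub_zero]
          rw [h6, mul_assoc, h77, mul_sub, mul_one]
        rw [h5, h1, hPq]
        abel
      exact congrArg (fun T : H →L[ℂ] H => T ζ) h4
    have h7 : (⟪(1 - q) (y ((1 - q) ξ)), ξ⟫_ℂ).re ≥ 0 := by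
      have h8 : ⟪(1 - q) (y ((1 - q) ξ)), ξ⟫_ℂ = ⟪y ((1 - q) ξ), (1 - q) ξ⟫_ℂ := by
        change ⟪y ((1 - q) ξ) - q (y ((1 - q) ξ)), ξ⟫_ℂ = ⟪y ((1 - q) ξ), ξ - q ξ⟫_ℂ
        rw [inner_sub_left, hq.inner_left, inner_sub_right]
      rw [h8]
      exact hy.re_inner_nonneg_left _
    have h9 : (⟪P ξ, ξ⟫_ℂ).re ≥ 0 := hP.re_inner_nonneg_left ξ
    rw [h3 ξ, inner_add_left, inner_add_left, inner_smul_left, hq.inner_eq, Complex.conj_ofReal,
      ← Complex.ofReal_mul, Complex.add_re, Complex.add_re, Complex.ofReal_re]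
    linarith

/-- The family version. -/
theorem fprj_le {R : S → S → (E →L[ℂ] E) → Prop} {y : S → (E →L[ℂ] E)} (hy : y ∈ Com R)
    (hpos : ∀ s, (y s).IsPositive) (hne : y ≠ 0) :
    ∃ ε : ℝ, 0 < ε ∧ ∃ q ∈ Com R, q * q = q ∧ star q = q ∧ q ≠ 0 ∧
      ∀ s ξ, ε * ‖q s ξ‖ ^ 2 ≤ (⟪y s ξ, ξ⟫_ℂ).re := by
  classical
  obtain ⟨D, hD⟩ := exists_diag y hy.1
  have hc := diag_comm hy hD
  have hf : fam D = y := diag_eq_fam hD
  have hcs : ∀ w ∈ XR R, w * star D = star D * w := fun w hw => by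
    have h1 := congrArg star (hc _ (XR_adj w hw))
    rw [star_mul, star_mul] at h1
    have h2 : star (adjoint w) = w := adjoint_adjoint w
    rw [h2] at h1
    exact h1.symm
  have hDsa : star D = D := by
    refine fam_inj hcs hc ?_
    rw [fam_star, hf]
    funext s
    exact (hpos s).isSelfAdjoint
  have hDpos : D.IsPositive := by
    refine (isPositive_iff_complex D).2 fun f => ?_
    have h1 : ⟪D f, f⟫_ℂ = ∑' s, ⟪y s ((f : S → E) s), (f : S → E) s⟫_ℂ := by
      rw [lp.inner_eq_tsum]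
      exact tsum_congr fun s => by rw [hD]
    have hsum := lp.summable_inner (𝕜 := ℂ) (D f) f
    have h2 : ∀ s, ⟪y s ((f : S → E) s), (f : S → E) s⟫_ℂ =
        (((⟪y s ((f : S → E) s), (f : S → E) s⟫_ℂ).re : ℝ) : ℂ) := by
      intro s
      have := ((isPositive_iff_complex (y s)).1 (hpos s) ((f : S → E) s)).1
      exact this.symm
    have h3 : ⟪D f, f⟫_ℂ = ((∑' s, (⟪y s ((f : S → E) s), (f : S → E) s⟫_ℂ).re : ℝ) : ℂ) := by
      rw [h1, Complex.ofReal_tsum]
      exact tsum_congr h2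
    rw [h3]
    refine ⟨congrArg Complex.ofReal (Complex.ofReal_re _), ?_⟩
    change 0 ≤ ((∑' s, (⟪y s ((f : S → E) s), (f : S → E) s⟫_ℂ).re : ℝ) : ℂ).re
    rw [Complex.ofReal_re]
    exact tsum_nonneg fun s => (hpos s).re_inner_nonneg_left _
  have hDne : D ≠ 0 := by
    intro h0
    apply hne
    rw [← hf, h0]
    rfl
  obtain ⟨ε, hε, q, hq, hq0, hqc, hqle⟩ := exists_prj_le hDpos hDne
  have hqX : ∀ w ∈ XR R, w * q = q * w := fun w hw => hqc w (hc w hw) (hc _ (XR_adj w hw))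
  refine ⟨ε, hε, fam q, fam_mem hqX, ?_, ?_, ?_, fun s ξ => ?_⟩
  · rw [← fam_mul hqX, hq.idem]
  · rw [← fam_star]; exact congrArg fam hq.adj
  · intro h0
    apply hq0
    refine fam_inj hqX (fun w _ => by rw [mul_zero, zero_mul]) ?_
    rw [h0]
    rfl
  · have h1 := hqle (lp.single 2 s ξ)
    have h2 : ‖q (lp.single 2 s ξ)‖ = ‖fam q s ξ‖ := by
      have h3 : q (lp.single 2 s ξ) = lp.single 2 s (fam q s ξ) := by
        apply lp.ext
        funext t
        rw [apply_eq_fam hqX]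
        by_cases ht : t = s
        · subst ht
          rw [lp.single_apply_self, lp.single_apply_self]
        · rw [lp.single_apply_ne _ _ _ ht, lp.single_apply_ne _ _ _ ht, map_zero]
      rw [h3, lp.norm_single (by norm_num)]
    rw [h2, lp.inner_single_right, hD, lp.single_apply_self] at h1
    exact h1

end Vale.Agent.P092.H231
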