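import Vale.Agent.P092.RC.Half
import Vale.Agent.P092.H242.Hat3

/-!
P092 (helper231), TEAM C, the row `hat` of `HalfStmt`: the extended set
`W' = X ∪ target of the other leg ∪ boundary map of the other leg`: the structure `RC.Ext` and the
commutation of `W'` with the Cesàro limits `Ê(S)`.
-/

set_option linter.all false

open scoped InnerProductSpace ENNReal
open Filter Topology ContinuousLinearMap MeasureTheory TopologicalSpace

namespace Vale.Agent.P092.H231.HatW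

open Vale.Agent.P092.SR Vale.Agent.P092.H160 Vale.Agent.P092.RC
open Vale.Agent.P092.H242.Ces
open Vale.Agent.P092.H242.Hat (Pt Eh MS)

section con

variable {k : Type} [NontriviallyNormedField k] {m : ℕ} [LocallyCompactSpace (GG k m)]
  [SecondCountableTopology (GG k m)] [MeasurableSpace (GG k m)] [BorelSpace (GG k m)]
  {Γ : Subgroup (GG k m)} [DiscreteTopology Γ] [Countable Γ] [MeasurableSpace (GG k m ⧸ Γ)]
  [BorelSpace (GG k m ⧸ Γ)] {ν : Measure (GG k m ⧸ Γ)} [IsProbabilityMeasure ν]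
  (hν : ∀ g : GG k m, ν.map (fun x => g • x) = ν)
  {Λ : Type} [Group Λ] {α : Γ →* (Ell2 Λ →L[ℂ] Ell2 Λ)} (hα : Frame α)

/-- the extended set of the first leg -/
def WX (α : Γ →* (Ell2 Λ →L[ℂ] Ell2 Λ)) (E : Clopens (YY k m) → (KC hν Λ →L[ℂ] KC hν Λ)) :
    Set (KC hν Λ →L[ℂ] KC hν Λ) :=
  XC hν Λ ∪ Set.range (lamC hν (RR₂ α)) ∪ Set.range (flp hν E)

variable {q : Γ →* GG k m} {E : Clopens (YY k m) → (KC hν Λ →L[ℂ] KC hν Λ)}

/-- a constant operator of the first leg commutes with a constant operator of the second leg -/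
theorem cst_comm (A B : Ell2 Λ →L[ℂ] Ell2 Λ) :
    (cst hν (tens A 1) : KC hν Λ →L[ℂ] KC hν Λ) * cst hν (tens 1 B) =
      cst hν (tens 1 B) * cst hν (tens A 1) := by
  rw [← H790.comp_mul, ← H790.comp_mul, ← tens_mul, ← tens_mul, one_mul, mul_one, one_mul,
    mul_one]

/-- the constant operators of the first leg commute with `W` -/
theorem cm_cst (A : Ell2 Λ →L[ℂ] Ell2 Λ) :
    Cm (XC hν Λ ∪ Set.range (lamC hν (RR₂ α))) (cst hν (tens A 1)) := by
  rintro w (⟨S, hS, rfl⟩ | ⟨γ, rfl⟩)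
  · exact H790.ind_comp hS _
  · exact cst_comm hν A (JJ (α γ))

/-- `π(g)⁻¹ A π(g)` for `A` of the first leg commutes with `W` -/
theorem cm_conj (hp : RC.Pic (piC hν hα) (lamC hν (RR₁ α))
      (XC hν Λ ∪ Set.range (lamC hν (RR₂ α))) (OmC hν Λ))
    {T : KC hν Λ →L[ℂ] KC hν Λ} (hT : Cm (XC hν Λ ∪ Set.range (lamC hν (RR₂ α))) T)
    (g : GG k m) : Cm (XC hν Λ ∪ Set.range (lamC hν (RR₂ α)))
      (piC hν hα g⁻¹ * T * piC hν hα g) := by
  intro x hx
  have h1 := hT _ (hp.WP x hx g)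
  have h3 : piC hν hα g * piC hν hα g⁻¹ = 1 := by rw [← map_mul, mul_inv_cancel, map_one]
  have h4 : piC hν hα g⁻¹ * piC hν hα g = 1 := by rw [← map_mul, inv_mul_cancel, map_one]
  calc piC hν hα g⁻¹ * T * piC hν hα g * x
      = piC hν hα g⁻¹ * (T * (piC hν hα g * x * piC hν hα g⁻¹)) * piC hν hα g := by
        rw [mul_assoc (piC hν hα g⁻¹), mul_assoc (piC hν hα g⁻¹), mul_assoc (piC hν hα g⁻¹)]
        congr 1
        rw [mul_assoc, mul_assoc T, mul_assoc (piC hν hα g * x), h4, mul_one]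
    _ = (piC hν hα g⁻¹ * piC hν hα g) * x * (piC hν hα g⁻¹ * T * piC hν hα g) := by
        rw [h1]
        simp only [mul_assoc]
    _ = x * (piC hν hα g⁻¹ * T * piC hν hα g) := by rw [h4, one_mul]

theorem norm_cst_conj_le {A : Ell2 (Λ × Λ) →L[ℂ] Ell2 (Λ × Λ)} {e : ℝ}
    (hA : ‖(cst hν A : KC hν Λ →L[ℂ] KC hν Λ)‖ ≤ e) (g : GG k m) :
    ‖piC hν hα g⁻¹ * cst hν A * piC hν hα g‖ ≤ e := by
  have h0 : 0 ≤ e := (norm_nonneg _).trans hA
  have h1 : ‖piC hν hα g⁻¹ * cst hν A‖ ≤ e :=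
    (norm_mul_le _ _).trans ((mul_le_of_le_one_left (norm_nonneg _) (norm_piC_le hν hα _)).trans hA)
  exact (norm_mul_le _ _).trans ((mul_le_of_le_one_right (norm_nonneg _)
    (norm_piC_le hν hα _)).trans h1)

/-- the conjugate by the flip of `π(g)⁻¹ (A ⊗ 1) π(g)` -/
theorem cj_conj (A : Ell2 Λ →L[ℂ] Ell2 Λ) (g : GG k m) :
    RC.cj (flU hν Λ) (piC hν hα g⁻¹ * cst hν (tens A 1) * piC hν hα g) =
      piC hν hα g⁻¹ * cst hν (tens 1 A) * piC hν hα g := by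
  simp only [map_mul, cj_pi, cj_cst, H839.swp_tens]

/-- the operators of the two legs commute along the same element -/
theorem conj_comm (A B : Ell2 Λ →L[ℂ] Ell2 Λ) (g : GG k m) :
    (piC hν hα g⁻¹ * cst hν (tens A 1) * piC hν hα g) *
      (piC hν hα g⁻¹ * cst hν (tens 1 B) * piC hν hα g) =
      (piC hν hα g⁻¹ * cst hν (tens 1 B) * piC hν hα g) *
        (piC hν hα g⁻¹ * cst hν (tens A 1) * piC hν hα g) := by
  have h3 : piC hν hα g * piC hν hα g⁻¹ = 1 := by rw [← map_mul, mul_inv_cancel, map_one]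
  have h4 : ∀ X Y : KC hν Λ →L[ℂ] KC hν Λ,
      (piC hν hα g⁻¹ * X * piC hν hα g) * (piC hν hα g⁻¹ * Y * piC hν hα g) =
      piC hν hα g⁻¹ * (X * Y) * piC hν hα g := by
    intro X Y
    calc _ = piC hν hα g⁻¹ * X * (piC hν hα g * piC hν hα g⁻¹) * Y * piC hν hα g := by
          simp only [mul_assoc]
      _ = _ := by rw [h3, mul_one]; simp only [mul_assoc]
  rw [h4, h4, cst_comm]

variable {b : GG k m} {M : Set Γ → (Ell2 Λ →L[ℂ] Ell2 Λ)} {Bs : Clopens (YY k m) → Set Γ}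
  {c : ℝ}

/-- the boundary maps of the two legs commute -/
theorem comm_flp (hM : ∀ S, ‖(cst hν (tens (M S) 1) : KC hν Λ →L[ℂ] KC hν Λ)‖ ≤ c)
    (hlim : ∀ C ξ, Tendsto (fun t : ℕ => Pt (fun S => cst hν (tens (M S) 1))
      (fun g => piC hν hα g) (b ^ t) (Bs C) ξ) atTop (𝓝 (E C ξ))) (C C' : Clopens (YY k m)) :
    E C * flp hν E C' = flp hν E C' * E C := by
  refine lim_comm
    (S := fun n => Pt (fun S => cst hν (tens (M S) 1)) (fun g => piC hν hα g) (b ^ n) (Bs C))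
    (T := fun n => RC.cj (flU hν Λ) (Pt (fun S => cst hν (tens (M S) 1))
      (fun g => piC hν hα g) (b ^ n) (Bs C'))) (c := c) (d := c)
    (fun n => norm_cst_conj_le hν hα (hM _) _) (fun n => ?_) (hlim C) (fun ξ => ?_) fun n => ?_
  · rw [RC.norm_cj]
    exact norm_cst_conj_le hν hα (hM _) _
  · have h1 := hlim C' ((flU hν Λ).symm ξ)
    exact ((flU hν Λ).continuous.tendsto _).comp h1
  · have h1 : RC.cj (flU hν Λ) (Pt (fun S => cst hν (tens (M S) 1)) (fun g => piC hν hα g)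
        (b ^ n) (Bs C')) = piC hν hα (b ^ n)⁻¹ * cst hν (tens 1 (M (Bs C'))) *
          piC hν hα (b ^ n) := cj_conj hν hα _ _
    rw [h1]
    exact conj_comm hν hα _ _ _

/-- **[W1]** `RC.Ext` for the extended set of the first leg -/
theorem ext_of (hp : Pic2 (piC hν hα) (lamC hν (RR₁ α)) (lamC hν (RR₂ α)) (XC hν Λ) (OmC hν Λ))
    (hE : RC.Lim (piC hν hα) (lamC hν (RR₁ α)) (XC hν Λ ∪ Set.range (lamC hν (RR₂ α))) q y0 E)
    (hc : ∀ C C', E C * flp hν E C' = flp hν E C' * E C) :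
    RC.Ext (piC hν hα) (lamC hν (RR₁ α)) (XC hν Λ ∪ Set.range (lamC hν (RR₂ α)))
      (XC hν Λ ∪ Set.range (lamC hν (RR₂ α)) ∪ Set.range (flp hν E)) y0 E where
  sub := Set.subset_union_left
  adj := by
    rintro w (hw | ⟨C, rfl⟩)
    · exact Or.inl (hp.leg₁.Wadj w hw)
    · refine Or.inr ⟨C, ?_⟩
      change RC.cj (flU hν Λ) (E C) = adjoint (RC.cj (flU hν Λ) (E C))
      rw [adjoint_cj, ← star_eq_adjoint, hE.cpv.sa C]
  par := by
    rintro w (hw | ⟨C, rfl⟩) p hpy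
    · exact Or.inl (hp.leg₁.WP w hw p)
    · refine Or.inr ⟨C, ?_⟩
      change RC.cj (flU hν Λ) (E C) = piC hν hα p * RC.cj (flU hν Λ) (E C) * piC hν hα p⁻¹
      have h1 : RC.cj (flU hν Λ) (piC hν hα p * E C * piC hν hα p⁻¹) =
          piC hν hα p * RC.cj (flU hν Λ) (E C) * piC hν hα p⁻¹ := by
        simp only [map_mul, cj_pi]
      rw [← h1, hE.par p hpy C, mul_assoc, ← map_mul, mul_inv_cancel, map_one, mul_one]
  lam := by
    rintro w (hw | ⟨C, rfl⟩) γ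
    · exact hp.leg₁.WL w hw γ
    · have h1 : E C * lamC hν (RR₂ α) γ = lamC hν (RR₂ α) γ * E C :=
        hE.cm C (lamC hν (RR₂ α) γ) (Or.inr ⟨γ, rfl⟩)
      have h2 : RC.cj (flU hν Λ) (E C) * RC.cj (flU hν Λ) (lamC hν (RR₂ α) γ) =
          RC.cj (flU hν Λ) (lamC hν (RR₂ α) γ) * RC.cj (flU hν Λ) (E C) := by
        rw [← map_mul, h1, map_mul]
      rw [cj_lam₂] at h2
      exact h2
  cE := by
    rintro C w (hw | ⟨C', rfl⟩)
    · exact hE.cm C w hw
    · exact hc C C'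

/-- **[W2]** the extended set of the first leg commutes with the Cesàro limits -/
theorem comm_Eh (hp : Pic2 (piC hν hα) (lamC hν (RR₁ α)) (lamC hν (RR₂ α)) (XC hν Λ) (OmC hν Λ))
    (hM : ∀ S, ‖(cst hν (tens (M S) 1) : KC hν Λ →L[ℂ] KC hν Λ)‖ ≤ c)
    (hMa : ∀ S, adjoint (cst hν (tens (M S) 1) : KC hν Λ →L[ℂ] KC hν Λ) = cst hν (tens (M S) 1))
    (hEa : ∀ C, adjoint (E C) = E C)
    (hlim : ∀ C ξ, Tendsto (fun t : ℕ => Pt (fun S => cst hν (tens (M S) 1))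
      (fun g => piC hν hα g) (b ^ t) (Bs C) ξ) atTop (𝓝 (E C ξ)))
    {𝒰 : Ultrafilter ℕ} (hU : (𝒰 : Filter ℕ) ≤ atTop) :
    ∀ w ∈ XC hν Λ ∪ Set.range (lamC hν (RR₂ α)) ∪ Set.range (flp hν E), ∀ S : Set Γ,
      w * Eh (fun S => cst hν (tens (M S) 1)) (fun g => piC hν hα g) 𝒰 b S =
        Eh (fun S => cst hν (tens (M S) 1)) (fun g => piC hν hα g) 𝒰 b S * w := by
  have hA : ∀ (S : Set Γ) (t : ℕ), ‖Pt (fun S => cst hν (tens (M S) 1))
      (fun g => piC hν hα g) (b ^ t) S‖ ≤ c := fun S t => norm_cst_conj_le hν hα (hM S) _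
  rintro w (hw | ⟨C, rfl⟩) S
  · exact cl_comm' (hA S) fun t => (cm_conj hν hα hp.leg₁ (cm_cst hν (M S)) (b ^ t) w hw).symm
  · set T : ℕ → (KC hν Λ →L[ℂ] KC hν Λ) := fun n => RC.cj (flU hν Λ)
      (Pt (fun S => cst hν (tens (M S) 1)) (fun g => piC hν hα g) (b ^ n) (Bs C)) with hT
    have hTn : ∀ n, ‖T n‖ ≤ c := fun n => by
      rw [hT]; simp only; rw [RC.norm_cj]; exact hA _ n
    have hTs : ∀ ξ, Tendsto (fun n => T n ξ) atTop (𝓝 (flp hν E C ξ)) := fun ξ => by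
      have h1 := hlim C ((flU hν Λ).symm ξ)
      exact ((flU hν Λ).continuous.tendsto _).comp h1
    have hTa : ∀ n, adjoint (T n) = T n := fun n => by
      have h1 : adjoint (Pt (fun S => cst hν (tens (M S) 1)) (fun g => piC hν hα g) (b ^ n)
          (Bs C)) = Pt (fun S => cst hν (tens (M S) 1)) (fun g => piC hν hα g) (b ^ n) (Bs C) := by
        have h5 : ∀ X Y : KC hν Λ →L[ℂ] KC hν Λ, adjoint (X * Y) = adjoint Y * adjoint X :=
          fun X Y => by rw [← star_eq_adjoint, star_mul]; rfl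
        change adjoint (piC hν hα (b ^ n)⁻¹ * cst hν (tens (M (Bs C)) 1) * piC hν hα (b ^ n)) =
          piC hν hα (b ^ n)⁻¹ * cst hν (tens (M (Bs C)) 1) * piC hν hα (b ^ n)
        rw [h5, h5, hp.leg₁.adjP, hp.leg₁.adjP, inv_inv, hMa, mul_assoc]
      rw [hT]; simp only; rw [adjoint_cj, h1]
    have hXa : adjoint (flp hν E C) = flp hν E C := by
      change adjoint (RC.cj (flU hν Λ) (E C)) = RC.cj (flU hν Λ) (E C)
      rw [adjoint_cj, hEa]
    have hcm : ∀ n, T n * Pt (fun S => cst hν (tens (M S) 1)) (fun g => piC hν hα g) (b ^ n) S =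
        Pt (fun S => cst hν (tens (M S) 1)) (fun g => piC hν hα g) (b ^ n) S * T n := fun n => by
      have h1 : T n = piC hν hα (b ^ n)⁻¹ * cst hν (tens 1 (M (Bs C))) *
          piC hν hα (b ^ n) := cj_conj hν hα _ _
      rw [h1]
      exact (conj_comm hν hα _ _ _).symm
    have h1 := cl_strong_left (U := 𝒰) hU (hA S) (E := T) (E0 := flp hν E C) hTn (fun ξ => by
      rw [hXa]
      refine (hTs ξ).congr fun n => ?_
      rw [hTa])
    have h2 := cl_strong_right (U := 𝒰) hU (hA S) (E := T) (E0 := flp hν E C) hTn hTs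
    change flp hν E C * cl 𝒰 _ = cl 𝒰 _ * flp hν E C
    rw [← h1, ← h2]
    exact cl_congr' hcm

/-! ### The same with the input `MS` -/

theorem norm_ms {lam : Γ →* (KC hν Λ →L[ℂ] KC hν Λ)} {ms : Set Γ → (KC hν Λ →L[ℂ] KC hν Λ)}
    (hm : MS lam ms) (S : Set Γ) : ‖ms S‖ ≤ 1 := by
  have h0 : ms S * ms S = ms S := by rw [← hm.inter, Set.inter_self]
  have h1 : ‖ms S‖ * ‖ms S‖ = ‖ms S‖ := by
    have h2 := CStarRing.norm_star_mul_self (x := ms S)
    rw [star_eq_adjoint, hm.adj, h0] at h2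
    exact h2.symm
  rcases (norm_nonneg (ms S)).eq_or_lt with h | h
  · rw [← h]; exact zero_le_one
  · exact (mul_left_cancel₀ h.ne' (h1.trans (mul_one _).symm)).le

/-- **[W1]** in the letters of the joint: `RC.Ext` from `Lim` and the strong limits -/
theorem ext_ms (hp : Pic2 (piC hν hα) (lamC hν (RR₁ α)) (lamC hν (RR₂ α)) (XC hν Λ) (OmC hν Λ))
    (hm : MS (lamC hν (RR₁ α)) (fun S => (cst hν (tens (M S) 1) : KC hν Λ →L[ℂ] KC hν Λ)))
    (hE : RC.Lim (piC hν hα) (lamC hν (RR₁ α)) (XC hν Λ ∪ Set.range (lamC hν (RR₂ α))) q y0 E)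
    (hlim : ∀ C ξ, Tendsto (fun t : ℕ => Pt (fun S => cst hν (tens (M S) 1))
      (fun g => piC hν hα g) (b ^ t) (Bs C) ξ) atTop (𝓝 (E C ξ))) :
    RC.Ext (piC hν hα) (lamC hν (RR₁ α)) (XC hν Λ ∪ Set.range (lamC hν (RR₂ α)))
      (XC hν Λ ∪ Set.range (lamC hν (RR₂ α)) ∪ Set.range (flp hν E)) y0 E :=
  ext_of hν hα hp hE (comm_flp hν hα (c := 1) (norm_ms hν hm) hlim)

/-- **[W2]** in the letters of the joint -/
theorem comm_ms (hp : Pic2 (piC hν hα) (lamC hν (RR₁ α)) (lamC hν (RR₂ α)) (XC hν Λ) (OmC hν Λ))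
    (hm : MS (lamC hν (RR₁ α)) (fun S => (cst hν (tens (M S) 1) : KC hν Λ →L[ℂ] KC hν Λ)))
    (hE : RC.Lim (piC hν hα) (lamC hν (RR₁ α)) (XC hν Λ ∪ Set.range (lamC hν (RR₂ α))) q y0 E)
    (hlim : ∀ C ξ, Tendsto (fun t : ℕ => Pt (fun S => cst hν (tens (M S) 1))
      (fun g => piC hν hα g) (b ^ t) (Bs C) ξ) atTop (𝓝 (E C ξ)))
    {𝒰 : Ultrafilter ℕ} (hU : (𝒰 : Filter ℕ) ≤ atTop) :
    ∀ w ∈ XC hν Λ ∪ Set.range (lamC hν (RR₂ α)) ∪ Set.range (flp hν E), ∀ S : Set Γ,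
      w * Eh (fun S => cst hν (tens (M S) 1)) (fun g => piC hν hα g) 𝒰 b S =
        Eh (fun S => cst hν (tens (M S) 1)) (fun g => piC hν hα g) 𝒰 b S * w :=
  comm_Eh hν hα hp (c := 1) (norm_ms hν hm) hm.adj
    (fun C => by rw [← star_eq_adjoint]; exact hE.cpv.sa C) hlim hU

end con

end Vale.Agent.P092.H231.HatW
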