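import Vale.Agent.P092.H231.ZT2
import Vale.Agent.P092.H375.ResB3
import Vale.Agent.P092.H307.Erg

/-!
P092 (helper231), TEAM C, wrapper of [C-RES], part 2: from the data `RB` of Theorem RES to the
families `Tor`, the covariance under the stabiliser and maximality.
-/

set_option linter.all false

namespace Vale.Agent.P092.H231

open TopologicalSpace Filter Topology Vale.Agent.P092.H820 Vale.Agent.P092.H200.Sheet
open Vale.Agent.P092.H175.T1 (MinP Qn)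
open Vale.Agent.P092.H375 (RB sym)

variable {Γ Y G₀ H₀ K : Type} [Group Γ] [TopologicalSpace Y] [MulAction Γ Y]
  [ContinuousConstSMul Γ Y] [Group G₀] [TopologicalSpace G₀] [Group H₀]
  [NormedAddCommGroup K] [InnerProductSpace ℂ K] [CompleteSpace K]

variable {lam : Γ →* (K →L[ℂ] K)} {E : Clopens Y → (K →L[ℂ] K)} {S : Set (K →L[ℂ] K)}
  {π : H₀ →* (K →L[ℂ] K)} {c : Γ → Y → G₀} {Un : ℕ → Subgroup G₀} {Wn W : ℕ → Subgroup H₀}
  {p q a n m0 : ℕ} {f : G₀ → (K →L[ℂ] K)} {x : ℕ → G₀ → (K →L[ℂ] K)}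

/-- **The families of projections of Theorem RES.** -/
theorem tor_of [CompactSpace Y] [IsTopologicalGroup G₀] (h : Dat lam E S π c) (hU : Lev Un)
    (hR : RB al (be π h.pi_star) (h.P Un Wn) Un W p q a n m0 f x) : Tor lam E S c Un a x where
  cpv := h.cpv
  lev := hU
  sh m hm := ((mem_Qn_iff h hU).1 (hR.x_min m hm).mem).2
  sa m hm g := congrFun (hR.x_min m hm).sa g
  idem m hm g := congrFun (hR.x_min m hm).idem g
  le m M hm hmM g := congrFun (hR.x_le hm hmM) g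
  orth m hm g g' hg := by
    have h1 := congrFun (hR.orth hm hg) g
    change x m g * x m (g * (g⁻¹ * g')) = 0 at h1
    rwa [mul_inv_cancel_left] at h1
  nd m hm T hT := H307.eq_zero_of_mul h (H307.germ_of_mem h hU (hR.x_P hm)) (hR.x_min m hm).ne hT

section more

variable [CompactSpace Y] [IsTopologicalGroup G₀] (h : Dat lam E S π c) (hU : Lev Un)
  (hR : RB al (be π h.pi_star) (h.P Un Wn) Un W p q a n m0 f x)
include h hU hR

/-- (E') for the minimal projection -/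
theorem hE_of : ∀ y ∈ h.P Un Wn, (∀ g, y * al g f = 0) → y = 0 := fun y _ hy =>
  H307.hE h hU hR.f_P hR.opt.1.ne y hy

theorem comm_of : ∀ y ∈ h.P Un Wn, ∀ z ∈ h.P Un Wn, y * z = z * y := hR.b6 (hE_of h hU hR)

/-- how an element acts on the projections -/
theorem act_x {y : G₀ → (K →L[ℂ] K)} (hy : y ∈ h.P Un Wn) (k : G₀) :
    ∃ M₀, a ≤ M₀ ∧ ∀ M, M₀ ≤ M → ∀ g, y g * x M (g * k) = sym al x y k • x M (g * k) := by
  obtain ⟨M₀, ha, hM⟩ := hR.sym_spec (comm_of h hU hR) hy k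
  exact ⟨M₀, ha, fun M hM1 g => congrFun (hM M hM1) g⟩

/-- the hypothesis of `Tor.isZ_pi` -/
theorem hw_of {w : H₀} {t : G₀} (hw : ∀ y ∈ h.P Un Wn, ∀ k, sym al x (be π h.pi_star w y) k =
    sym al x y (k * t)) (hPw : ∀ y ∈ h.P Un Wn, be π h.pi_star w y ∈ h.P Un Wn) :
    ∀ m, a ≤ m → ∃ M₀, m ≤ M₀ ∧ ∀ M, M₀ ≤ M → ∀ g,
      π w * x m (g * t) * π w⁻¹ * x M g = x M g := by
  intro m hm
  have hP := hR.x_P hm
  obtain ⟨M₀, ha, hM⟩ := act_x h hU hR (hPw _ hP) t⁻¹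
  refine ⟨max m M₀, le_max_left _ _, fun M hM1 g => ?_⟩
  have h1 := hM M ((le_max_right _ _).trans hM1) (g * t)
  rw [mul_inv_cancel_right, hw _ hP, inv_mul_cancel, hR.sym_x_of_mem hm (one_mem _), one_smul]
    at h1
  exact h1

/-- the symbol of an element of level `U` -/
theorem sym_level {U : Subgroup G₀} {y : G₀ → (K →L[ℂ] K)} (hy : y ∈ h.P Un Wn)
    (hinv : ∀ g, ∀ u ∈ U, y (g * u) = y g) {u : G₀} (hu : u ∈ U) (k : G₀) :
    sym al x y (u * k) = sym al x y k := by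
  have h1 : al u⁻¹ y = y := by
    funext g
    exact hinv g _ (inv_mem hu)
  have h2 := hR.sym_act (comm_of h hU hR) hy u⁻¹ k
  rw [h1, inv_inv] at h2
  exact h2.symm

/-- an element of level `U` acts by the scalar `sym y t` on the projections `g U t` -/
theorem act_level {U : Subgroup G₀} {y : G₀ → (K →L[ℂ] K)} (hy : y ∈ h.P Un Wn)
    (hinv : ∀ g, ∀ u ∈ U, y (g * u) = y g) (t : G₀) :
    ∃ M₀, a ≤ M₀ ∧ ∀ M, M₀ ≤ M → ∀ g, ∀ u ∈ U,
      y g * x M (g * u * t) = sym al x y t • x M (g * u * t) := by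
  obtain ⟨M₀, ha, hM⟩ := act_x h hU hR hy t
  refine ⟨M₀, ha, fun M hM1 g u hu => ?_⟩
  have h1 := hM M hM1 (g * u)
  rwa [hinv g u hu] at h1

/-- a nonzero element has a nonzero symbol -/
theorem exists_sym {y : G₀ → (K →L[ℂ] K)} (hy : y ∈ h.P Un Wn) (hy0 : y ≠ 0) :
    ∃ t, sym al x y t ≠ 0 := by
  by_contra hcon
  push Not at hcon
  exact hy0 (hR.sym_inj0 (comm_of h hU hR) (hE_of h hU hR) hy hcon)

/-- an element of level `U` acts by a function of `t` on the projections `g U t` -/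
theorem exists_phi {U : Subgroup G₀} {y : G₀ → (K →L[ℂ] K)} (hy : y ∈ h.P Un Wn)
    (hinv : ∀ g, ∀ u ∈ U, y (g * u) = y g) :
    ∃ φ : G₀ → ℂ, ∀ t, ∃ M₀, ∀ M, M₀ ≤ M → ∀ g, ∀ u ∈ U,
      y g * x M (g * u * t) = φ t • x M (g * u * t) := by
  have h1 : ∀ t : G₀, ∃ φ : ℂ, ∃ M₀, ∀ M, M₀ ≤ M → ∀ g, ∀ u ∈ U,
      y g * x M (g * u * t) = φ • x M (g * u * t) := fun t => by
    obtain ⟨M₀, -, hM₀⟩ := act_level h hU hR hy hinv t
    exact ⟨_, M₀, hM₀⟩
  choose φ hφ using h1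
  exact ⟨φ, hφ⟩

/-- a nonzero element has a nonzero eigenvalue -/
theorem heig_of {y : G₀ → (K →L[ℂ] K)} (haP : y ∈ h.P Un Wn) (hne : y ≠ 0) :
    ∃ (t : G₀) (μ : ℂ) (M₀ : ℕ), μ ≠ 0 ∧ ∀ M, a ≤ M → M₀ ≤ M → ∀ g,
      y (g * t) * x M g = μ • x M g := by
  obtain ⟨t₀, ht₀⟩ := exists_sym h hU hR haP hne
  obtain ⟨M₀, -, hM₀⟩ := act_x h hU hR haP t₀
  refine ⟨t₀⁻¹, _, M₀, ht₀, fun M _ hM g => ?_⟩
  have h1 := hM₀ M hM (g * t₀⁻¹)
  rwa [inv_mul_cancel_right] at h1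

end more

namespace Tor

variable {C D : Set (Y × G₀)} {T T' : K →L[ℂ] K}

/-- **maximality**, general form -/
theorem max_of' (h : Tor lam E S c Un a x) {C : Set (Y × G₀)} {T y : K →L[ℂ] K}
    (hT : IsZ E a x C T) {φ : ℂ} {M₀ : ℕ} (hyE : ∀ A, y * E A = E A * y)
    (hy : ∀ M, M₀ ≤ M → ∀ g, slc C g = ⊥ ∨ y * x M g = φ • x M g) : y * T = φ • T := by
  obtain ⟨n, hn, h1⟩ := hT
  refine h.nd' (hn.trans (le_max_left n M₀)) fun g => ?_
  have h2 := (h1 (max n M₀) (le_max_left _ _) g).1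
  rw [mul_assoc, smul_mul_assoc, h2]
  rcases hy _ (le_max_right n M₀) g with h3 | h3
  · rw [h3, h.cpv.bot, zero_mul, mul_zero, smul_zero]
  · rw [← mul_assoc, hyE, mul_assoc, h3, mul_smul_comm]

end Tor

end Vale.Agent.P092.H231
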