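import Vale.Agent.P092.H231.ZT
import Vale.Agent.P092.H200.Sheet2

/-!
P092 (helper231), TEAM C, block [C-ZPVM], part 2: covariance of the projection valued measure on
`Y × G₀`, nondegeneracy, and the maximality property.
-/

set_option linter.all false

namespace Vale.Agent.P092.H231

open TopologicalSpace Filter Topology Vale.Agent.P092.H820 Vale.Agent.P092.H200.Sheet

variable {Γ Y G₀ H₀ K : Type} [Group Γ] [TopologicalSpace Y] [MulAction Γ Y]
  [ContinuousConstSMul Γ Y] [Group G₀] [TopologicalSpace G₀] [Group H₀]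
  [NormedAddCommGroup K] [InnerProductSpace ℂ K] [CompleteSpace K]

/-- the action of `γ` on subsets of `Y × G₀`: `(y, g) ↦ (γ y, c γ y g)` -/
def zl (c : Γ → Y → G₀) (γ : Γ) (C : Set (Y × G₀)) : Set (Y × G₀) :=
  {z | (γ⁻¹ • z.1, (c γ (γ⁻¹ • z.1))⁻¹ * z.2) ∈ C}

/-- right translation of subsets of `Y × G₀` by `t` -/
def zr (C : Set (Y × G₀)) (t : G₀) : Set (Y × G₀) := {z | (z.1, z.2 * t⁻¹) ∈ C}

/-- the set `Y × g V` -/
def zc (V : Subgroup G₀) (g : G₀) : Set (Y × G₀) := {z | g⁻¹ * z.2 ∈ V}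

omit [ContinuousConstSMul Γ Y] [TopologicalSpace Y] [TopologicalSpace G₀] in
theorem zl_eq_image (c : Γ → Y → G₀) (γ : Γ) (C : Set (Y × G₀)) :
    zl c γ C = (fun z : Y × G₀ => (γ • z.1, c γ z.1 * z.2)) '' C := by
  ext ⟨y, g⟩
  constructor
  · intro hz
    refine ⟨_, hz, ?_⟩
    simp only [smul_inv_smul, mul_inv_cancel_left]
  · rintro ⟨⟨y', g'⟩, hz, h⟩
    simp only [Prod.mk.injEq] at h
    obtain ⟨rfl, rfl⟩ := h
    change (γ⁻¹ • γ • y', (c γ (γ⁻¹ • γ • y'))⁻¹ * (c γ y' * g')) ∈ C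
    rw [inv_smul_smul, inv_mul_cancel_left]
    exact hz

theorem zr_eq_image (C : Set (Y × G₀)) (t : G₀) :
    zr C t = (fun z : Y × G₀ => (z.1, z.2 * t)) '' C := by
  ext ⟨y, g⟩
  constructor
  · intro hz
    exact ⟨_, hz, by simp⟩
  · rintro ⟨⟨y', g'⟩, hz, h⟩
    simp only [Prod.mk.injEq] at h
    obtain ⟨rfl, rfl⟩ := h
    change (y', g' * t * t⁻¹) ∈ C
    rw [mul_inv_cancel_right]
    exact hz

theorem isClopen_zl [IsTopologicalGroup G₀] {c : Γ → Y → G₀} {γ : Γ} (hc : Continuous (c γ))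
    {C : Set (Y × G₀)} (hC : IsClopen C) : IsClopen (zl c γ C) := by
  refine hC.preimage (f := fun z : Y × G₀ => (γ⁻¹ • z.1, (c γ (γ⁻¹ • z.1))⁻¹ * z.2)) ?_
  have h1 : Continuous fun z : Y × G₀ => γ⁻¹ • z.1 := (continuous_const_smul γ⁻¹).comp continuous_fst
  exact h1.prodMk (((hc.comp h1).inv).mul continuous_snd)

theorem isCompact_zl [IsTopologicalGroup G₀] {c : Γ → Y → G₀} {γ : Γ} (hc : Continuous (c γ))
    {C : Set (Y × G₀)} (hC : IsCompact C) : IsCompact (zl c γ C) := by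
  rw [zl_eq_image]
  refine hC.image ?_
  have h1 : Continuous fun z : Y × G₀ => γ • z.1 := (continuous_const_smul γ).comp continuous_fst
  exact h1.prodMk ((hc.comp continuous_fst).mul continuous_snd)

theorem isClopen_zr [IsTopologicalGroup G₀] {C : Set (Y × G₀)} (hC : IsClopen C) (t : G₀) :
    IsClopen (zr C t) := by
  refine hC.preimage (f := fun z : Y × G₀ => (z.1, z.2 * t⁻¹)) ?_
  fun_prop

theorem isCompact_zr [IsTopologicalGroup G₀] {C : Set (Y × G₀)} (hC : IsCompact C) (t : G₀) :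
    IsCompact (zr C t) := by
  rw [zr_eq_image]
  exact hC.image (by fun_prop)

theorem isClopen_zc [IsTopologicalGroup G₀] {V : Subgroup G₀} (hV : IsOpen (V : Set G₀)) (g : G₀) :
    IsClopen (zc V g : Set (Y × G₀)) := by
  have h1 : IsClopen (V : Set G₀) := ⟨V.isClosed_of_isOpen hV, hV⟩
  refine h1.preimage (f := fun z : Y × G₀ => g⁻¹ * z.2) ?_
  fun_prop

theorem isCompact_zc [IsTopologicalGroup G₀] [CompactSpace Y] {V : Subgroup G₀}
    (hV : IsCompact (V : Set G₀)) (g : G₀) : IsCompact (zc V g : Set (Y × G₀)) := by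
  have h1 : (zc V g : Set (Y × G₀)) = (Set.univ : Set Y) ×ˢ ((fun u => g * u) '' (V : Set G₀)) := by
    ext ⟨y, g'⟩
    constructor
    · intro hz
      exact ⟨trivial, ⟨_, hz, by simp⟩⟩
    · rintro ⟨-, v, hv, h⟩
      change g⁻¹ * g' ∈ V
      have h2 : g * v = g' := h
      rw [← h2, inv_mul_cancel_left]
      exact hv
  rw [h1]
  exact isCompact_univ.prod (hV.image (continuous_const_mul g))

variable {lam : Γ →* (K →L[ℂ] K)} {E : Clopens Y → (K →L[ℂ] K)} {S : Set (K →L[ℂ] K)}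
  {π : H₀ →* (K →L[ℂ] K)}
  {c : Γ → Y → G₀} {Un : ℕ → Subgroup G₀} {a : ℕ} {x : ℕ → G₀ → (K →L[ℂ] K)}

namespace Tor

variable (h : Tor lam E S c Un a x)
include h

theorem isZ_of_left {C : Set (Y × G₀)} {T : K →L[ℂ] K} {n : ℕ} (hn : a ≤ n)
    (h1 : ∀ m, n ≤ m → ∀ g, T * x m g = E (slc C g) * x m g)
    (h2 : ∀ m, n ≤ m → ∀ g, star T * x m g = E (slc C g) * x m g) : IsZ E a x C T := by
  refine ⟨n, hn, fun m hm g => ⟨h1 m hm g, ?_⟩⟩
  have ham : a ≤ m := hn.trans hm
  have h3 := congrArg star (h2 m hm g)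
  rw [star_mul, star_mul, star_star, h.sa m ham, h.cpv.sa] at h3
  rw [h3, (h.sh m ham).commE]

/-- **covariance under `Γ`** -/
theorem isZ_lam [CompactSpace Y] [IsTopologicalGroup G₀] (hD : Dat lam E S π c)
    {C : Set (Y × G₀)} (hC : IsClopen C) {n₀ : ℕ} (hinv : Inv (Un n₀) C) {T : K →L[ℂ] K}
    (hT : IsZ E a x C T) (γ : Γ) : IsZ E a x (zl c γ C) (lam γ * T * lam γ⁻¹) := by
  have key : ∀ T : K →L[ℂ] K, IsZ E a x C T → ∃ n, a ≤ n ∧ ∀ m, n ≤ m → ∀ g',
      lam γ * T * lam γ⁻¹ * x m g' = E (slc (zl c γ C) g') * x m g' := by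
    rintro T ⟨n, hn, hT⟩
    refine ⟨max n n₀, hn.trans (le_max_left _ _), fun m hm g' => ?_⟩
    have hnm : n ≤ m := (le_max_left _ _).trans hm
    have ham : a ≤ m := hn.trans hnm
    have hinvm : Inv (Un m) C := hinv.mono (h.lev.anti ((le_max_right _ _).trans hm))
    have hC' := isClopen_zl (hD.c_cont γ) hC
    have hl : lam γ⁻¹ * lam γ = 1 := by rw [← map_mul, inv_mul_cancel, map_one]
    have main : ∀ A : Clopens Y, lam γ * T * lam γ⁻¹ * x m g' * E (tr γ A) =
        E (slc (zl c γ C) g') * x m g' * E (tr γ A) := by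
      refine clopen_ind ?_ ?_ ?_
      · rw [tr_bot, h.cpv.bot, mul_zero, mul_zero]
      · intro A B hAB hA hB
        have hAB' : Disjoint (tr γ A) (tr γ B) := by
          rw [disjoint_iff, ← tr_inf, hAB.eq_bot, tr_bot]
        rw [tr_sup, h.cpv.add hAB', mul_add, mul_add, hA, hB]
      · intro y
        set g : G₀ := (c γ y)⁻¹ * g' with hg
        have hcl : IsClopen (Un m : Set G₀) := ⟨(Un m).isClosed_of_isOpen (h.lev.opn m), h.lev.opn m⟩
        have hct : Continuous fun y' => g'⁻¹ * (c γ y' * g) := by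
          have := hD.c_cont γ
          fun_prop
        refine ⟨⟨_, hcl.preimage hct⟩, ?_, fun A hA => ?_⟩
        · change g'⁻¹ * (c γ y * g) ∈ Un m
          rw [hg, mul_inv_cancel_left, inv_mul_cancel]
          exact one_mem _
        · have hA' : ∀ y' ∈ A, g'⁻¹ * (c γ y' * g) ∈ Un m := fun y' hy' => hA hy'
          have h1 := (h.sh m ham).eqv γ g g' A hA'
          have h2 : lam γ * E (slc C g) * lam γ⁻¹ = E (tr γ (slc C g)) := hD.lam_E _ _
          have h3 : tr γ (slc C g) ⊓ tr γ A = slc (zl c γ C) g' ⊓ tr γ A := by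
            ext z
            change (z ∈ tr γ (slc C g) ∧ z ∈ tr γ A) ↔ (z ∈ slc (zl c γ C) g' ∧ z ∈ tr γ A)
            refine and_congr_left fun hz => ?_
            rw [mem_tr, mem_slc hC, mem_slc hC']
            change _ ↔ (γ⁻¹ • z, (c γ (γ⁻¹ • z))⁻¹ * g') ∈ C
            have h4 := hA' _ (mem_tr.1 hz)
            have h5 : (c γ (γ⁻¹ • z))⁻¹ * g' = g * (g'⁻¹ * (c γ (γ⁻¹ • z) * g))⁻¹ := by group
            rw [h5]
            exact (hinvm.iff (inv_mem h4)).symm
          calc lam γ * T * lam γ⁻¹ * x m g' * E (tr γ A)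
              = lam γ * T * lam γ⁻¹ * (x m g' * E (tr γ A)) := by rw [mul_assoc _ (x m g')]
            _ = lam γ * T * (lam γ⁻¹ * lam γ) * (x m g * E A) * lam γ⁻¹ := by
                rw [← h1]; simp only [mul_assoc]
            _ = lam γ * (T * x m g) * E A * lam γ⁻¹ := by
                rw [hl, mul_one]; simp only [mul_assoc]
            _ = lam γ * (E (slc C g) * x m g) * E A * lam γ⁻¹ := by rw [(hT m hnm g).1]
            _ = lam γ * E (slc C g) * 1 * (x m g * E A) * lam γ⁻¹ := by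
                simp only [mul_assoc, one_mul]
            _ = lam γ * E (slc C g) * (lam γ⁻¹ * lam γ) * (x m g * E A) * lam γ⁻¹ := by rw [hl]
            _ = (lam γ * E (slc C g) * lam γ⁻¹) * (lam γ * (x m g * E A) * lam γ⁻¹) := by
                simp only [mul_assoc]
            _ = E (tr γ (slc C g)) * (x m g' * E (tr γ A)) := by rw [h2, h1]
            _ = (E (tr γ (slc C g)) * E (tr γ A)) * x m g' := by
                rw [← (h.sh m ham).commE, mul_assoc]
            _ = (E (slc (zl c γ C) g') * E (tr γ A)) * x m g' := by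
                rw [← h.cpv.inf, h3, h.cpv.inf]
            _ = E (slc (zl c γ C) g') * x m g' * E (tr γ A) := by
                rw [mul_assoc, (h.sh m ham).commE, mul_assoc]
    have h1 := main ⊤
    rwa [tr_top, h.cpv.top, mul_one, mul_one] at h1
  obtain ⟨n, hn, h1⟩ := key T hT
  obtain ⟨n', hn', h2⟩ := key (star T) (h.isZ_star hT)
  refine h.isZ_of_left (hn.trans (le_max_left n n')) (fun m hm => h1 m ((le_max_left _ _).trans hm))
    fun m hm g => ?_
  have h3 : star (lam γ * T * lam γ⁻¹) = lam γ * star T * lam γ⁻¹ := by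
    rw [star_mul, star_mul, hD.lam_star, hD.lam_star, inv_inv, mul_assoc]
  rw [h3]
  exact h2 m ((le_max_right _ _).trans hm) g

/-- **covariance under the source group**: `w` acts by right translation by `θ⁻¹` -/
theorem isZ_pi [IsTopologicalGroup G₀] (hD : Dat lam E S π c) (w : H₀) (θ : G₀)
    (hw : ∀ m, a ≤ m → ∃ M₀, m ≤ M₀ ∧ ∀ M, M₀ ≤ M → ∀ g,
      π w * x m (g * θ) * π w⁻¹ * x M g = x M g)
    {C : Set (Y × G₀)} (hC : IsClopen C) {T : K →L[ℂ] K} (hT : IsZ E a x C T) :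
    IsZ E a x (zr C θ⁻¹) (π w * T * π w⁻¹) := by
  have key : ∀ T : K →L[ℂ] K, IsZ E a x C T → ∃ n, a ≤ n ∧ ∀ m, n ≤ m → ∀ g,
      π w * T * π w⁻¹ * x m g = E (slc (zr C θ⁻¹) g) * x m g := by
    rintro T ⟨n, hn, hT⟩
    obtain ⟨M₀, hM₀, hM⟩ := hw n hn
    refine ⟨M₀, hn.trans hM₀, fun M hM1 g => ?_⟩
    have h1 := hM M hM1 g
    have hl : π w⁻¹ * π w = 1 := by rw [← map_mul, inv_mul_cancel, map_one]
    have hs : slc (zr C θ⁻¹) g = slc C (g * θ) := by
      ext y
      change y ∈ slc _ g ↔ y ∈ slc _ _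
      rw [mem_slc (isClopen_zr hC _), mem_slc hC]
      change (y, g * θ⁻¹⁻¹) ∈ C ↔ _
      rw [inv_inv]
    have h2 := (hT n le_rfl (g * θ)).1
    calc π w * T * π w⁻¹ * x M g = π w * T * π w⁻¹ * (π w * x n (g * θ) * π w⁻¹ * x M g) := by
          rw [h1]
      _ = π w * T * (π w⁻¹ * π w) * x n (g * θ) * π w⁻¹ * x M g := by simp only [mul_assoc]
      _ = π w * (T * x n (g * θ)) * π w⁻¹ * x M g := by rw [hl, mul_one]; simp only [mul_assoc]
      _ = π w * E (slc C (g * θ)) * x n (g * θ) * π w⁻¹ * x M g := by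
          rw [h2]; simp only [mul_assoc]
      _ = E (slc C (g * θ)) * (π w * x n (g * θ) * π w⁻¹ * x M g) := by
          rw [hD.pi_E]; simp only [mul_assoc]
      _ = E (slc (zr C θ⁻¹) g) * x M g := by rw [h1, hs]
  obtain ⟨n, hn, h1⟩ := key T hT
  obtain ⟨n', hn', h2⟩ := key (star T) (h.isZ_star hT)
  refine h.isZ_of_left (hn.trans (le_max_left n n')) (fun m hm => h1 m ((le_max_left _ _).trans hm))
    fun m hm g => ?_
  have h3 : star (π w * T * π w⁻¹) = π w * star T * π w⁻¹ := by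
    rw [star_mul, star_mul, hD.pi_star, hD.pi_star, inv_inv, mul_assoc]
  rw [h3]
  exact h2 m ((le_max_right _ _).trans hm) g

/-- the projection of `Y × g U_m` is `x m g` -/
theorem isZ_zc [IsTopologicalGroup G₀] {m : ℕ} (hm : a ≤ m) (g : G₀) :
    IsZ E a x (zc (Un m) g) (x m g) := by
  have hz : IsClopen (zc (Un m) g : Set (Y × G₀)) := isClopen_zc (h.lev.opn m) g
  have key : ∀ M, m ≤ M → ∀ g', x m g * x M g' = E (slc (zc (Un m) g) g') * x M g' := by
    intro M hM g'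
    by_cases hg : g⁻¹ * g' ∈ Un m
    · have h1 : slc (zc (Un m) g : Set (Y × G₀)) g' = ⊤ := by
        ext y
        change y ∈ slc _ g' ↔ True
        rw [mem_slc hz]
        exact ⟨fun _ => trivial, fun _ => hg⟩
      rw [h1, h.cpv.top, one_mul, ← h.x_eq hm hg, h.le m M hm hM]
    · have h1 : slc (zc (Un m) g : Set (Y × G₀)) g' = ⊥ := by
        ext y
        change y ∈ slc _ g' ↔ False
        rw [mem_slc hz]
        exact ⟨fun h2 => hg h2, False.elim⟩
      rw [h1, h.cpv.bot, zero_mul, (h.orth' hm hM hg).1]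
  exact h.isZ_of_left hm key (by rw [h.sa m hm]; exact key)

/-- **nondegeneracy** -/
theorem nondeg [IsTopologicalGroup G₀] [CompactSpace Y] (hcpt : ∀ m, IsCompact (Un m : Set G₀))
    {T : K →L[ℂ] K} (hT : ∀ C : Set (Y × G₀), IsCompact C → IsOpen C → T * Zt E a x C = 0) :
    T = 0 := by
  refine h.nd a le_rfl T fun g => ?_
  have h1 := hT (zc (Un a) g) (isCompact_zc (hcpt a) g) (isClopen_zc (h.lev.opn a) g).isOpen
  rwa [h.zt_eq (h.isZ_zc le_rfl g)] at h1

/-- **maximality**: if `y` acts as the scalar `φ` on the translates `x M (g u t)`, then it acts as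
the scalar `φ` on the projection of `Y × g U_m t`. -/
theorem max_of {C : Set (Y × G₀)} (hC : IsClopen C) {T y : K →L[ℂ] K} (hT : IsZ E a x C T)
    {φ : ℂ} {M₀ : ℕ} (hC2 : ∀ g, slc C g = ⊤ ∨ slc C g = ⊥)
    (hy : ∀ M, M₀ ≤ M → ∀ g, slc C g = ⊤ → y * x M g = φ • x M g) : y * T = φ • T := by
  obtain ⟨n, hn, h1⟩ := hT
  refine h.nd' (hn.trans (le_max_left n M₀)) fun g => ?_
  have h2 := (h1 (max n M₀) (le_max_left _ _) g).1
  rw [mul_assoc, smul_mul_assoc, h2]
  rcases hC2 g with h3 | h3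
  · rw [h3, h.cpv.top, one_mul, hy _ (le_max_right _ _) g h3]
  · rw [h3, h.cpv.bot, zero_mul, mul_zero, smul_zero]

end Tor

end Vale.Agent.P092.H231
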