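import Vale.Agent.P092.H231.R2
import Vale.Agent.P092.H473.RQ
import Vale.Agent.P092.H45.Tb2

/-!
P092 (helper231), TEAM C, wrapper of [C-RES], part 3: the structure `ZFam` from the data `RB` of
Theorem RES (helper473, helper375), in the letters of `RC/Defs`.
-/

set_option linter.all false

open scoped InnerProductSpace ENNReal
open Filter Topology ContinuousLinearMap TopologicalSpace

namespace Vale.Agent.P092.H231

open Vale.Agent.P092.RC Vale.Agent.P092.H820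
open Vale.Agent.P092.SR (CO)
open Vale.Agent.P092.H200.Sheet (Dat Sh Lev tr al be)
open Vale.Agent.P092.H175.T1 (MinP)
open Vale.Agent.P092.H375 (RB sym)
open Vale.Agent.P092.H473.Res (GrpH)
open Vale.Agent.P092.H473.RQ

variable {G Γ Y G₀ K : Type} [Group G] [TopologicalSpace G] [Group Γ] [TopologicalSpace Y]
  [MulAction G Y] [Group G₀] [TopologicalSpace G₀] [NormedAddCommGroup K] [InnerProductSpace ℂ K]
  [CompleteSpace K] [ContinuousConstSMul G Y] [MulAction Γ Y] [ContinuousConstSMul Γ Y]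

variable {π : G →* (K →L[ℂ] K)} {lam : Γ →* (K →L[ℂ] K)} {W W' : Set (K →L[ℂ] K)} {Ω : K}
  {q : Γ →* G} {c : G → Y → G₀} {y₀ : Y} {E : Clopens Y → (K →L[ℂ] K)} {U : Subgroup G₀}
  {a : G₀ → (K →L[ℂ] K)} {Kn : ℕ → Subgroup G₀} {p n : ℕ}

/-- the double translate of a compact open subgroup -/
theorem co_box [CompactSpace Y] [IsTopologicalGroup G₀] (hU : SR.COS U) (B : Clopens Y)
    (h t : G₀) : CO ((B : Set Y) ×ˢ {x : G₀ | ∃ u ∈ U, x = h * u * t}) := by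
  have h1 : {x : G₀ | ∃ u ∈ U, x = h * u * t} = (fun u => h * u * t) '' (U : Set G₀) := by
    ext x
    constructor
    · rintro ⟨u, hu, rfl⟩
      exact ⟨u, hu, rfl⟩
    · rintro ⟨u, hu, rfl⟩
      exact ⟨u, hu, rfl⟩
  have h2 : {x : G₀ | ∃ u ∈ U, x = h * u * t} = (fun x => h⁻¹ * x * t⁻¹) ⁻¹' (U : Set G₀) := by
    ext x
    constructor
    · rintro ⟨u, hu, rfl⟩
      change h⁻¹ * (h * u * t) * t⁻¹ ∈ U
      have h3 : h⁻¹ * (h * u * t) * t⁻¹ = u := by group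
      rwa [h3]
    · intro hx
      refine ⟨h⁻¹ * x * t⁻¹, hx, ?_⟩
      group
  constructor
  · rw [h1]
    exact B.isClopen.isClosed.isCompact.prod (hU.1.image (by fun_prop))
  · refine B.isClopen.isOpen.prod ?_
    rw [h2]
    exact hU.2.preimage (by fun_prop)

section zt

variable {lam : Γ →* (K →L[ℂ] K)} {E : Clopens Y → (K →L[ℂ] K)} {S : Set (K →L[ℂ] K)}
  {c' : Γ → Y → G₀} {a₁ : ℕ} {x : ℕ → G₀ → (K →L[ℂ] K)}

theorem zt_isZ [IsTopologicalGroup G₀] [T2Space Y] [T2Space G₀] (hT : Tor lam E S c' Kn a₁ x)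
    {C : Set (Y × G₀)} (hC : CO C) : IsZ E a₁ x C (Zt E a₁ x C) :=
  hT.isZ_zt (hT.exists_isZ hC.1 hC.2)

theorem zt_adj [IsTopologicalGroup G₀] [T2Space Y] [T2Space G₀] (hT : Tor lam E S c' Kn a₁ x)
    {C : Set (Y × G₀)} (hC : CO C) : adjoint (Zt E a₁ x C) = Zt E a₁ x C :=
  (hT.zt_eq (hT.isZ_star (zt_isZ hT hC))).symm

theorem zt_nondeg [IsTopologicalGroup G₀] [CompactSpace Y] [T2Space Y] [T2Space G₀]
    (hT : Tor lam E S c' Kn a₁ x) (hcpt : ∀ m, IsCompact (Kn m : Set G₀)) (ζ : K)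
    (hζ : ∀ C, CO C → Zt E a₁ x C ζ = 0) : ζ = 0 := by
  obtain ⟨T, hTd⟩ : ∃ T : K →L[ℂ] K, T = (innerSL ℂ ζ).smulRight ζ := ⟨_, rfl⟩
  have hTa : ∀ ξ, T ξ = ⟪ζ, ξ⟫_ℂ • ζ := fun ξ => by rw [hTd]; rfl
  have h1 : T = 0 := by
    refine hT.nondeg hcpt fun C hC hCo => ?_
    ext ξ
    change T (Zt E a₁ x C ξ) = 0
    rw [hTa, ← adjoint_inner_left, zt_adj hT ⟨hC, hCo⟩, hζ C ⟨hC, hCo⟩, inner_zero_left,
      zero_smul]
  have h2 : T ζ = 0 := by rw [h1]; rfl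
  rw [hTa] at h2
  rcases smul_eq_zero.1 h2 with h3 | h3
  · exact inner_self_eq_zero.1 h3
  · exact h3

theorem zt_cm [IsTopologicalGroup G₀] [T2Space Y] [T2Space G₀] (hT : Tor lam E S c' Kn a₁ x)
    {w : K →L[ℂ] K} (hw : w ∈ S) (hwE : ∀ A, w * E A = E A * w) {C : Set (Y × G₀)}
    (hC : CO C) : Zt E a₁ x C * w = w * Zt E a₁ x C :=
  (hT.isZ_comm (zt_isZ hT hC) hwE fun m hm g => (hT.sh m hm).comm g w hw).symm

theorem zt_base [IsTopologicalGroup G₀] [T2Space Y] [T2Space G₀] (hT : Tor lam E S c' Kn a₁ x)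
    (B : Clopens Y) {C : Set (Y × G₀)} (hC : CO C) :
    Zt E a₁ x C * E B = Zt E a₁ x (C ∩ Prod.fst ⁻¹' (B : Set Y)) := by
  have h1 := hT.isZ_mul ⟨hC.1.isClosed, hC.2⟩ (B.isClopen.prod isClopen_univ) (zt_isZ hT hC)
    (hT.isZ_E B)
  have h2 : C ∩ ((B : Set Y) ×ˢ (Set.univ : Set G₀)) = C ∩ Prod.fst ⁻¹' (B : Set Y) := by
    ext z
    simp
  rw [h2] at h1
  exact (hT.zt_eq h1).symm

end zt

section fields

variable {a₁ n₁ m₀ : ℕ} {f : G₀ → (K →L[ℂ] K)} {x : ℕ → G₀ → (K →L[ℂ] K)} {S : Set (K →L[ℂ] K)}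

theorem zt_cov [IsTopologicalGroup G₀] [CompactSpace Y] [T2Space Y] [T2Space G₀] {H₀ : Type}
    [Group H₀] {π₀ : H₀ →* (K →L[ℂ] K)}
    (hq : ∀ (γ : Γ) (y : Y), γ • y = q γ • y) (hlev : Lev Kn)
    (hD : Dat lam E S π₀ (fun γ y => c (q γ) y))
    (hT : Tor lam E S (fun γ y => c (q γ) y) Kn a₁ x) (γ : Γ) {C : Set (Y × G₀)} (hC : CO C) :
    lam γ * Zt E a₁ x C * lam γ⁻¹ = Zt E a₁ x (zact c (q γ) '' C) := by
  obtain ⟨n₀, -, hinv⟩ := exists_level hlev a₁ hC.1 hC.2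
  have h1 := hT.isZ_lam hD ⟨hC.1.isClosed, hC.2⟩ hinv (zt_isZ hT hC) γ
  have h2 : zl (fun γ y => c (q γ) y) γ C = zact c (q γ) '' C := by
    rw [zl_eq_image]
    refine Set.image_congr fun z _ => ?_
    rw [hq]
    rfl
  rw [h2] at h1
  exact (hT.zt_eq h1).symm

theorem zt_par [IsTopologicalGroup G₀] [T2Space Y] [T2Space G₀] {H₀ : Type}
    [Group H₀] {π₀ : H₀ →* (K →L[ℂ] K)} {c' : Γ → Y → G₀} (hD : Dat lam E S π₀ c')
    (hT : Tor lam E S c' Kn a₁ x) (w : H₀) (t : G₀)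
    (hw : ∀ m, a₁ ≤ m → ∃ M₀, m ≤ M₀ ∧ ∀ M, M₀ ≤ M → ∀ g,
      π₀ w * x m (g * t) * π₀ w⁻¹ * x M g = x M g) {C : Set (Y × G₀)} (hC : CO C) :
    π₀ w * Zt E a₁ x C * π₀ w⁻¹ = Zt E a₁ x ((fun z => RC.zr z t⁻¹) '' C) := by
  have h1 := hT.isZ_pi hD w t hw ⟨hC.1.isClosed, hC.2⟩ (zt_isZ hT hC)
  rw [zr_eq_image] at h1
  exact (hT.zt_eq h1).symm

/-- the set `B ×ˢ h U t` -/
theorem zt_max [IsTopologicalGroup G₀] [CompactSpace Y] [T2Space Y] [T2Space G₀]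
    {c' : Γ → Y → G₀} (hT : Tor lam E S c' Kn a₁ x) (hU : SR.COS U) {b : G₀ → (K →L[ℂ] K)}
    (hbE : ∀ h C, b h * E C = E C * b h) {φ : ℂ} {t : G₀} {M₀ : ℕ}
    (hM₀ : ∀ M, M₀ ≤ M → ∀ g, ∀ u ∈ U, b g * x M (g * u * t) = φ • x M (g * u * t))
    (B : Clopens Y) (h : G₀) :
    b h * Zt E a₁ x ((B : Set Y) ×ˢ {x | ∃ u ∈ U, x = h * u * t}) =
      φ • Zt E a₁ x ((B : Set Y) ×ˢ {x | ∃ u ∈ U, x = h * u * t}) := by
  have hCO := co_box hU B h t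
  refine hT.max_of' (M₀ := M₀) (zt_isZ hT hCO) (fun A => hbE h A) fun M hM g => ?_
  by_cases hg : ∃ u ∈ U, g = h * u * t
  · right
    obtain ⟨u, hu, rfl⟩ := hg
    exact hM₀ M hM h u hu
  · left
    ext y
    change y ∈ slc _ g ↔ False
    rw [mem_slc ⟨hCO.1.isClosed, hCO.2⟩]
    exact ⟨fun hy => hg hy.2, False.elim⟩

/-- continuity of a homomorphism given by levels -/
theorem theta_cont {H₀ : Type} [Group H₀] [TopologicalSpace H₀] [IsTopologicalGroup H₀]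
    [IsTopologicalGroup G₀] {θ : H₀ →* G₀} {Wm : ℕ → Subgroup H₀}
    (hW : ∀ m, IsOpen (Wm m : Set H₀)) (hbas : ∀ V ∈ 𝓝 (1 : G₀), ∃ m, (Kn m : Set G₀) ⊆ V)
    (h3 : ∀ N, ∃ M, ∀ w ∈ Wm M, θ w ∈ Kn N) : Continuous θ := by
  refine continuous_of_continuousAt_one θ ?_
  rw [ContinuousAt, map_one]
  intro V hV
  obtain ⟨N, hN⟩ := hbas V hV
  obtain ⟨M, hM⟩ := h3 N
  rw [mem_map]
  refine mem_of_superset ((hW M).mem_nhds (one_mem _)) fun w hw => ?_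
  exact hN (hM w hw)

theorem comm_of_conj {g : G} {T : K →L[ℂ] K} (h2 : π g * T * π g⁻¹ = T) : π g * T = T * π g := by
  calc π g * T = π g * T * (π g⁻¹ * π g) := by
        rw [← map_mul, inv_mul_cancel, map_one, mul_one]
    _ = π g * T * π g⁻¹ * π g := by simp only [mul_assoc]
    _ = T * π g := by rw [h2]

theorem zt_tb [CompactSpace Y] [T2Space Y] [T2Space G₀] [IsTopologicalGroup G₀] {H₀ : Type}
    [Group H₀] {π₀ : H₀ →* (K →L[ℂ] K)} {c' : Γ → Y → G₀} {Wm Wm' : ℕ → Subgroup H₀}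
    (hP : Pic π lam W Ω) (hL : Lim π lam W q y₀ E) (hX : Ext π lam W W' y₀ E)
    (hA : Hat π lam W' Ω q c y₀ E U a)
    (hD : Dat lam E (SS π W' c y₀) π₀ c') (hlev : Lev Kn)
    {a₁ n₁ m₀ : ℕ} {f : G₀ → (K →L[ℂ] K)} {x : ℕ → G₀ → (K →L[ℂ] K)}
    (hRB : RB al (be π₀ hD.pi_star) (hD.P Kn Wm) Kn Wm' p n a₁ n₁ m₀ f x)
    (haP : a ∈ hD.P Kn Wm) (hT : Tor lam E (SS π W' c y₀) c' Kn a₁ x)
    {g : G} (hg : g • y₀ ≠ y₀) {C C' : Set (Y × G₀)} (hC : CO C) (hC' : CO C')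
    (hd : Disjoint (Prod.fst '' C) (Prod.fst '' C')) :
    TRN lam Ω (π g * Zt E a₁ x C' * π g⁻¹ * Zt E a₁ x C) < ∞ := by
  have heig := heig_of hD hlev hRB haP hA.ne
  have hx : ∀ m, a₁ ≤ m → ∀ g, Cm W (x m g) := fun m hm g w hw =>
    ((hT.sh m hm).comm g w (Or.inl (hX.sub hw))).symm
  exact H45.tb_zt hP hL hX.sub hA hT hx heig hg hC hC' hd

end fields

/-- **The family `ZFam` from the data `RB`.** -/
theorem zfam_of (hq : ∀ (γ : Γ) (y : Y), γ • y = q γ • y) (hG : Geo c y₀) (hP : Pic π lam W Ω)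
    (hL : Lim π lam W q y₀ E) (hX : Ext π lam W W' y₀ E) (hK : GrpH p n Kn)
    (hA : Hat π lam W' Ω q c y₀ E U a)
    (hD : Dat lam E (SS π W' c y₀) (πs π y₀) (fun γ y => c (q γ) y))
    {a₁ n₁ m₀ : ℕ} {f : G₀ → (K →L[ℂ] K)} {x : ℕ → G₀ → (K →L[ℂ] K)}
    (hRB : RB al (be (πs π y₀) hD.pi_star)
      (hD.P Kn (Wn hG Kn)) Kn (Wn hG Kn) p n a₁ n₁ m₀ f x)
    (hact : ∀ w, ∀ b ∈ hD.P Kn (Wn hG Kn), be (πs π y₀) hD.pi_star w b ∈ hD.P Kn (Wn hG Kn))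
    (hrad : ∀ r, prj hG r = 1 → ∀ b ∈ hD.P Kn (Wn hG Kn), be (πs π y₀) hD.pi_star r b = b)
    (haP : a ∈ hD.P Kn (Wn hG Kn))
    (hmem : ∀ (U' : Subgroup G₀) (b : G₀ → (K →L[ℂ] K)), SR.COS U' →
      Res π lam W' q c y₀ E U' b → (∃ V : Subgroup G, IsOpen (V : Set G) ∧ ∀ p ∈ V, p • y₀ = y₀ →
          ∀ h, π p * b h = b h * π p) → b ∈ hD.P Kn (Wn hG Kn))
    (hker : ∀ r : G, r • y₀ = y₀ → c r y₀ ≠ 1 → ¬ ∀ (U' : Subgroup G₀) (b : G₀ → (K →L[ℂ] K)),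
      SR.COS U' → Res π lam W' q c y₀ E U' b →
        (∃ V : Subgroup G, IsOpen (V : Set G) ∧ ∀ p ∈ V, p • y₀ = y₀ →
          ∀ h, π p * b h = b h * π p) → ∀ h, π r * b h = b h * π r) :
    ∃ (δ : G → G₀) (Q : Set (Y × G₀) → (K →L[ℂ] K)), ZFam π lam W' Ω q c y₀ E δ Q := by
  classical
  haveI := hG.tg
  haveI := hG.tg₀
  haveI := hG.cpt
  haveI := hG.t2
  haveI := hG.t2₀
  have hlev : Lev Kn := lev_of hK
  have hT : Tor lam E (SS π W' c y₀) (fun γ y => c (q γ) y) Kn a₁ x := tor_of hD hlev hRB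
  obtain ⟨θ, hθ1, hθ2, hθ3, -⟩ := hRB.exists_theta (comm_of hD hlev hRB) (hE_of hD hlev hRB) hact
  have hθc : Continuous θ :=
    theta_cont (fun m => (hK.opn m).preimage (prj_cont hG)) hK.bas hθ3
  obtain ⟨δ, hδ⟩ : ∃ δ : G → G₀, δ = fun g => if h : g • y₀ = y₀ then θ ⟨g, h⟩ else 1 := ⟨_, rfl⟩
  have hδe : ∀ (g : G) (h : g • y₀ = y₀), δ g = θ ⟨g, h⟩ := fun g h => by
    rw [hδ]
    exact dif_pos h
  refine ⟨δ, Zt E a₁ x,
    { adj := fun C hC => zt_adj hT hC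
      mul := fun C D hC hD' => (hT.zt_eq (hT.isZ_mul ⟨hC.1.isClosed, hC.2⟩
        ⟨hD'.1.isClosed, hD'.2⟩ (zt_isZ hT hC) (zt_isZ hT hD'))).symm
      add := fun C D hC hD' hCD => hT.zt_eq (hT.isZ_add ⟨hC.1.isClosed, hC.2⟩
        ⟨hD'.1.isClosed, hD'.2⟩ hCD (zt_isZ hT hC) (zt_isZ hT hD'))
      nondeg := fun ζ hζ => zt_nondeg hT hK.cpt ζ hζ
      cm := fun C hC w hw => zt_cm hT (Or.inl hw) (fun A => hD.S_E w (Or.inl hw) A) hC
      cov := fun γ C hC => zt_cov hq hlev hD hT γ hC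
      par := ?_
      base := fun B C hC => zt_base hT B hC
      δmul := ?_
      δker := ?_
      δcont := ?_
      tb := ?_
      max := ?_ }⟩
  · -- par
    intro p hp C hC
    rw [hδe p hp]
    exact zt_par hD hT (⟨p, hp⟩ : (St y₀ : Subgroup G)) (θ ⟨p, hp⟩)
      (hw_of hD hlev hRB (fun y hy k => hθ1 _ y hy k) fun y hy => hact _ y hy) hC
  · -- δmul
    intro p p' hp hp'
    have hpp : (p * p') • y₀ = y₀ := by rw [mul_smul, hp', hp]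
    rw [hδe _ hpp, hδe _ hp, hδe _ hp', ← map_mul]
    rfl
  · -- δker
    intro p hp
    rw [hδe _ hp, ← hθ2]
    constructor
    · intro h1
      by_contra hne
      refine hker p hp hne fun U' b hU' hb hs h => ?_
      exact comm_of_conj (congrFun (h1 b (hmem U' b hU' hb hs)) h)
    · intro h1 y hy
      exact hrad ⟨p, hp⟩ h1 y hy
  · -- δcont
    have h1 : (fun p : {p : G // p • y₀ = y₀} => δ p) =
        fun p : {p : G // p • y₀ = y₀} => θ ⟨p.1, p.2⟩ := by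
      funext p
      exact hδe p.1 p.2
    rw [h1]
    exact hθc.comp (continuous_subtype_val.subtype_mk _)
  · -- tb
    intro g hg C C' hC hC' hd
    exact zt_tb hP hL hX hA hD hlev hRB haP hT hg hC hC' hd
  · -- max
    intro U' hU' b hb hs
    obtain ⟨φ, hφ⟩ := exists_phi hD hlev hRB (hmem U' b hU' hb hs) hb.rinv
    refine ⟨φ, fun B h t => ?_⟩
    obtain ⟨M₀, hM₀⟩ := hφ t
    exact zt_max hT hU' hb.cE hM₀ B h

end Vale.Agent.P092.H231
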