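import Vale.Agent.P092.H231.R3
import Vale.Agent.P092.H473.Grp2
import Vale.Agent.P092.H200.Coc
import Vale.Agent.P092.H828.CKer
import Vale.Agent.P092.H307.HexC

/-!
P092 (helper231), TEAM C, wrapper of [C-RES], part 4: **`ResStmt m` for all `m ≥ 2`.**
-/

set_option linter.all false

open scoped InnerProductSpace ENNReal
open Filter Topology ContinuousLinearMap TopologicalSpace

namespace Vale.Agent.P092.H231

open Vale.Agent.P092.RC Vale.Agent.P092.H820
open Vale.Agent.P092.H473.Res (GrpH)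
open Vale.Agent.P092.H473.RQ

section conc

variable {k : Type} [NontriviallyNormedField k] {m : ℕ}

theorem cc_of_blk {g : GG k m} {y : YY k m} (h : blk g y = 1) : cc g y = 1 := by
  rw [cc]
  split_ifs with h1
  · have h2 : h1.unit = 1 := Units.ext (by rw [IsUnit.unit_spec, h]; rfl)
    rw [h2]
    rfl
  · rfl

/-- the radical of the stabiliser of `y₀` has the Moore property -/
theorem moore_rad (hm : 1 ≤ m) :
    Moore {r : GG k m | r • (y0 : YY k m) = y0 ∧ cc r (y0 : YY k m) = 1} := by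
  have hj : (0 : Fin (m + 1)) ≠ (⟨1, by omega⟩ : Fin (m + 1)) := by
    intro h
    simpa using congrArg Fin.val h
  have hroot : Moore (Set.range fun s : k =>
      (Matrix.SpecialLinearGroup.transvection hj s : GG k m)) := by
    intro F _ _ _ σ a1 a2 ξ hξ
    refine H103.mooreSet_root (k := k) (n := Fin (m + 1)) (i := 0) (j := ⟨1, by omega⟩) hj F σ
      ⟨a1, fun ξ => ?_⟩ ξ hξ
    have h5 := (a2 ξ).tendsto 1
    rwa [map_one] at h5
  refine H828.CKer.moore_mono hroot ?_
  rintro _ ⟨s, rfl⟩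
  have hv : (Matrix.SpecialLinearGroup.transvection hj s : GG k m).1 =
      Matrix.transvection 0 (⟨1, by omega⟩ : Fin (m + 1)) s := rfl
  have h1 : (Matrix.SpecialLinearGroup.transvection hj s : GG k m) • (y0 : YY k m) = y0 := by
    rw [H200.Coc.smul_y0_y0]
    intro i
    rw [hv, Matrix.transvection, Matrix.add_apply, Matrix.one_apply_ne (Fin.succ_ne_zero i),
      Matrix.single_apply_of_ne, add_zero]
    rintro ⟨h2, -⟩
    exact (Fin.succ_ne_zero i) h2.symm
  refine ⟨h1, cc_of_blk ?_⟩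
  rw [H200.Coc.blk_y0 h1, hv]
  ext i j
  rw [Matrix.submatrix_apply, Matrix.transvection, Matrix.add_apply, Matrix.single_apply_of_ne,
    add_zero, Matrix.one_apply, Matrix.one_apply]
  · simp [Fin.succ_inj]
  · rintro ⟨h2, -⟩
    exact (Fin.succ_ne_zero i) h2.symm

theorem sigma_gg [ProperSpace k] : SigmaCompactSpace (GG k m) := by
  haveI : SecondCountableTopology (Matrix (Fin (m + 1)) (Fin (m + 1)) k) :=
    inferInstanceAs (SecondCountableTopology (Fin (m + 1) → Fin (m + 1) → k))
  haveI : LocallyCompactSpace (Matrix (Fin (m + 1)) (Fin (m + 1)) k) :=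
    inferInstanceAs (LocallyCompactSpace (Fin (m + 1) → Fin (m + 1) → k))
  haveI : SigmaCompactSpace (Matrix (Fin (m + 1)) (Fin (m + 1)) k) :=
    sigmaCompactSpace_of_locallyCompact_secondCountable
  have h1 : IsClosed {A : Matrix (Fin (m + 1)) (Fin (m + 1)) k | A.det = 1} :=
    isClosed_eq (Continuous.matrix_det continuous_id) continuous_const
  exact h1.isClosedEmbedding_subtypeVal.sigmaCompactSpace

end conc

/-- **[C-RES]: the residue theorem of one leg** (Theorem RES, the torsor export, the exclusion of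
the trivial cases, the projection valued measure on `Y × G₀`). -/
theorem resStmt (m : ℕ) (hm : 2 ≤ m) : ResStmt m := by
  intro k _ _ _ _ Γ K _ _ _ _ π lam W W' Ω q E U a hq hP hL hX hA
  have hG : Geo (cc : GG k m → YY k m → PG k m) y0 := H200.Coc.geoStmt k m (by omega)
  haveI := hG.tg
  haveI := hG.tg₀
  haveI := hG.cpt
  haveI := hG.t2
  haveI := hG.t2₀
  letI : MulAction Γ (YY k m) := MulAction.compHom (YY k m) q
  have hact : ∀ (γ : Γ) (y : YY k m), γ • y = q γ • y := fun _ _ => rfl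
  haveI : ContinuousConstSMul Γ (YY k m) :=
    ⟨fun γ => continuous_const_smul (q γ)⟩
  obtain ⟨p, n, Kn, -, -, -, hK⟩ := H473.Res.grpH_pgl k (Fin m)
  haveI : SigmaCompactSpace (GG k m) := sigma_gg
  haveI : LocallyCompactSpace (PG k m) :=
    (hK.cpt 0).locallyCompactSpace_of_mem_nhds_of_group ((hK.opn 0).mem_nhds (one_mem _))
  have hR : Moore {r : GG k m | r • (y0 : YY k m) = y0 ∧ cc r (y0 : YY k m) = 1} :=
    moore_rad (by omega)
  have hD := dat hact hG hP hL hX hR
  have hlev := lev_of hK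
  have haP := hat_mem_P hact hG hP hL hX hR hK hA
  have hex := H307.hex_cos hD hlev hA.cos haP hA.res.rinv hA.pos hA.ne hA.sum
  have hker : ∀ r : GG k m, r • (y0 : YY k m) = y0 → cc r (y0 : YY k m) ≠ 1 →
      ¬ ∀ (U' : Subgroup (PG k m)) (b : PG k m → (K →L[ℂ] K)),
      SR.COS U' → Res π lam W' q cc (y0 : YY k m) E U' b →
        (∃ V : Subgroup (GG k m), IsOpen (V : Set (GG k m)) ∧ ∀ p ∈ V, p • (y0 : YY k m) = y0 →
          ∀ h, π p * b h = b h * π p) → ∀ h, π r * b h = b h * π r :=
    fun r h0 h1 h2 => H828.CKer.c_ker H200.Coc.geoStmt hm hq hP hL hX hA h0 h1 h2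
  have hresQ := resQ_of hact hG hP hL hX hR hK hex
  rcases dichC' hact hG hP hL hX hR hK hex with ⟨a₁, n₁, m₀, f, x, hRB⟩ | ⟨r, h0, h1, h2⟩
  · exact zfam_of hact hG hP hL hX hK hA hD hRB hresQ.actH hresQ.rad haP
      (fun U' b hU' hb hs => mem_P_of hact hG hP hL hX hR hK hU'.2 hb hs) hker
  · exact absurd h2 (hker r h0 h1)

end Vale.Agent.P092.H231
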