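import Vale.Agent.P092.H200.Sheet

/-!
P092 (helper231), TEAM C, block [C-ZPVM], part 1: the projection valued measure on `Y × G₀`.

Input (`Tor`): for `m ≥ a` a family `x m : G₀ → B(K)` of projections, `x m g` is the projection onto
`Y × g U_m`.  Output: for every compact open `C ⊆ Y × G₀` the operator `Zt C`.
-/

set_option linter.all false

namespace Vale.Agent.P092.H231

open TopologicalSpace Filter Topology Vale.Agent.P092.H820 Vale.Agent.P092.H200.Sheet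

variable {Γ Y G₀ H₀ K : Type} [Group Γ] [TopologicalSpace Y] [MulAction Γ Y]
  [ContinuousConstSMul Γ Y] [Group G₀] [TopologicalSpace G₀] [Group H₀]
  [NormedAddCommGroup K] [InnerProductSpace ℂ K] [CompleteSpace K]

/-- The input from Theorem RES. -/
structure Tor (lam : Γ →* (K →L[ℂ] K)) (E : Clopens Y → (K →L[ℂ] K)) (S : Set (K →L[ℂ] K))
    (c : Γ → Y → G₀) (Un : ℕ → Subgroup G₀) (a : ℕ) (x : ℕ → G₀ → (K →L[ℂ] K)) : Prop where
  cpv : Cpv E
  lev : Lev Un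
  sh : ∀ m, a ≤ m → Sh lam E S c (Un m) (x m)
  sa : ∀ m, a ≤ m → ∀ g, star (x m g) = x m g
  idem : ∀ m, a ≤ m → ∀ g, x m g * x m g = x m g
  le : ∀ m M, a ≤ m → m ≤ M → ∀ g, x m g * x M g = x M g
  orth : ∀ m, a ≤ m → ∀ g g', g⁻¹ * g' ∉ Un m → x m g * x m g' = 0
  nd : ∀ m, a ≤ m → ∀ T : K →L[ℂ] K, (∀ g, T * x m g = 0) → T = 0

/-- the slice of `C` at `g` (junk value `⊥` if it is not clopen) -/
noncomputable def slc (C : Set (Y × G₀)) (g : G₀) : Clopens Y := by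
  classical
  exact if h : IsClopen {y | (y, g) ∈ C} then ⟨_, h⟩ else ⊥

theorem mem_slc {C : Set (Y × G₀)} (hC : IsClopen C) {g : G₀} {y : Y} :
    y ∈ slc C g ↔ (y, g) ∈ C := by
  classical
  have h : IsClopen {y | (y, g) ∈ C} := hC.preimage (by fun_prop : Continuous fun y : Y => (y, g))
  have h2 : slc C g = ⟨_, h⟩ := dif_pos h
  rw [h2]
  rfl

theorem slc_inter {C D : Set (Y × G₀)} (hC : IsClopen C) (hD : IsClopen D) (g : G₀) :
    slc (C ∩ D) g = slc C g ⊓ slc D g := by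
  ext y
  change y ∈ slc (C ∩ D) g ↔ y ∈ slc C g ∧ y ∈ slc D g
  rw [mem_slc (hC.inter hD), mem_slc hC, mem_slc hD]
  rfl

theorem slc_union {C D : Set (Y × G₀)} (hC : IsClopen C) (hD : IsClopen D) (g : G₀) :
    slc (C ∪ D) g = slc C g ⊔ slc D g := by
  ext y
  change y ∈ slc (C ∪ D) g ↔ y ∈ slc C g ∨ y ∈ slc D g
  rw [mem_slc (hC.union hD), mem_slc hC, mem_slc hD]
  rfl

theorem slc_compl {C : Set (Y × G₀)} (hC : IsClopen C) (g : G₀) : slc Cᶜ g = (slc C g)ᶜ := by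
  ext y
  change y ∈ slc Cᶜ g ↔ ¬ y ∈ slc C g
  rw [mem_slc hC.compl, mem_slc hC]
  rfl

theorem slc_prod (A : Clopens Y) (g : G₀) : slc ((A : Set Y) ×ˢ (Set.univ : Set G₀)) g = A := by
  ext y
  change y ∈ slc _ g ↔ y ∈ A
  rw [mem_slc (A.isClopen.prod isClopen_univ)]
  simp

/-- `C` is right invariant under `V` -/
def Inv (V : Subgroup G₀) (C : Set (Y × G₀)) : Prop := ∀ y g, ∀ v ∈ V, (y, g) ∈ C → (y, g * v) ∈ C

theorem Inv.mono {V W : Subgroup G₀} {C : Set (Y × G₀)} (h : Inv V C) (hW : W ≤ V) : Inv W C :=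
  fun y g v hv hy => h y g v (hW hv) hy

theorem Inv.iff {V : Subgroup G₀} {C : Set (Y × G₀)} (h : Inv V C) {y : Y} {g v : G₀} (hv : v ∈ V) :
    (y, g * v) ∈ C ↔ (y, g) ∈ C := by
  refine ⟨fun h1 => ?_, h y g v hv⟩
  have h2 := h y (g * v) v⁻¹ (inv_mem hv) h1
  rwa [mul_inv_cancel_right] at h2

theorem Inv.slc_eq {V : Subgroup G₀} {C : Set (Y × G₀)} (h : Inv V C) {g v : G₀} (hv : v ∈ V) :
    slc C (g * v) = slc C g := by
  classical
  have h1 : {y | (y, g * v) ∈ C} = {y | (y, g) ∈ C} := by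
    ext y
    exact h.iff hv
  simp only [slc]
  simp_rw [h1]

theorem exists_level [IsTopologicalGroup G₀] {Un : ℕ → Subgroup G₀} (lev : Lev Un) (a : ℕ)
    {C : Set (Y × G₀)} (hC : IsCompact C) (hCo : IsOpen C) : ∃ n, a ≤ n ∧ Inv (Un n) C := by
  have key : ∃ n, a ≤ n ∧ ∀ z ∈ C, ∀ v ∈ Un n, (z.1, z.2 * v) ∈ C := by
    refine hC.induction_on (p := fun T => ∃ n, a ≤ n ∧ ∀ z ∈ T, ∀ v ∈ Un n, (z.1, z.2 * v) ∈ C)
      ⟨a, le_rfl, fun z hz => absurd hz (Set.notMem_empty z)⟩ ?_ ?_ ?_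
    · rintro T T' hTT' ⟨n, hn, h⟩
      exact ⟨n, hn, fun z hz => h z (hTT' hz)⟩
    · rintro T T' ⟨n, hn, h⟩ ⟨n', hn', h'⟩
      refine ⟨max n n', hn.trans (le_max_left _ _), ?_⟩
      rintro z (hz | hz) v hv
      · exact h z hz v (lev.anti (le_max_left _ _) hv)
      · exact h' z hz v (lev.anti (le_max_right _ _) hv)
    · rintro ⟨y, g⟩ hz
      have h1 : C ∈ 𝓝 (y, g) := hCo.mem_nhds hz
      rw [nhds_prod_eq, Filter.mem_prod_iff] at h1
      obtain ⟨V, hV, W, hW, hVW⟩ := h1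
      have h2 : (fun u => g * u) ⁻¹' W ∈ 𝓝 (1 : G₀) := by
        refine (continuous_const_mul g).continuousAt.preimage_mem_nhds ?_
        rwa [mul_one]
      obtain ⟨n, hn⟩ := lev.bas _ h2
      refine ⟨V ×ˢ ((fun u => g⁻¹ * u) ⁻¹' (Un (max a n) : Set G₀)), ?_, max a n,
        le_max_left _ _, ?_⟩
      · refine mem_nhdsWithin_of_mem_nhds (prod_mem_nhds hV ?_)
        refine (continuous_const_mul g⁻¹).continuousAt.preimage_mem_nhds ?_
        rw [inv_mul_cancel]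
        exact (lev.opn _).mem_nhds (one_mem _)
      · rintro ⟨y', g'⟩ ⟨hy', hg'⟩ v hv
        refine hVW ⟨hy', ?_⟩
        have h3 : g⁻¹ * g' * v ∈ Un n :=
          lev.anti (le_max_right a n) (mul_mem (show g⁻¹ * g' ∈ Un (max a n) from hg') hv)
        have h4 := hn h3
        simpa [mul_assoc] using h4
  obtain ⟨n, hn, h⟩ := key
  exact ⟨n, hn, fun y g v hv hy => h (y, g) hy v hv⟩

theorem finite_cosets [IsTopologicalGroup G₀] {V : Subgroup G₀} (hV : IsOpen (V : Set G₀))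
    {C : Set (Y × G₀)} (hC : IsCompact C) :
    ((fun z : Y × G₀ => ((z.2 : G₀) : G₀ ⧸ V)) '' C).Finite := by
  refine hC.induction_on (p := fun T => ((fun z : Y × G₀ => ((z.2 : G₀) : G₀ ⧸ V)) '' T).Finite)
    (by simp) (fun T T' h hT => hT.subset (Set.image_mono h)) ?_ ?_
  · intro T T' h h'
    rw [Set.image_union]
    exact h.union h'
  · rintro ⟨y, g⟩ hz
    refine ⟨Set.univ ×ˢ ((fun u => g⁻¹ * u) ⁻¹' (V : Set G₀)), ?_, ?_⟩
    · refine mem_nhdsWithin_of_mem_nhds (prod_mem_nhds univ_mem ?_)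
      refine (continuous_const_mul g⁻¹).continuousAt.preimage_mem_nhds ?_
      rw [inv_mul_cancel]
      exact hV.mem_nhds (one_mem _)
    · refine (Set.finite_singleton (g : G₀ ⧸ V)).subset ?_
      rintro _ ⟨⟨y', g'⟩, ⟨-, hg'⟩, rfl⟩
      exact (QuotientGroup.eq.2 hg').symm

variable {lam : Γ →* (K →L[ℂ] K)} {E : Clopens Y → (K →L[ℂ] K)} {S : Set (K →L[ℂ] K)}
  {c : Γ → Y → G₀} {Un : ℕ → Subgroup G₀} {a : ℕ} {x : ℕ → G₀ → (K →L[ℂ] K)}

/-- `T` is the operator of the set `C` -/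
def IsZ (E : Clopens Y → (K →L[ℂ] K)) (a : ℕ) (x : ℕ → G₀ → (K →L[ℂ] K)) (C : Set (Y × G₀))
    (T : K →L[ℂ] K) : Prop :=
  ∃ n, a ≤ n ∧ ∀ m, n ≤ m → ∀ g, T * x m g = E (slc C g) * x m g ∧
    x m g * T = E (slc C g) * x m g

/-- the projection of the set `C` -/
noncomputable def Zt (E : Clopens Y → (K →L[ℂ] K)) (a : ℕ) (x : ℕ → G₀ → (K →L[ℂ] K))
    (C : Set (Y × G₀)) : K →L[ℂ] K := by
  classical
  exact if h : ∃ T, IsZ E a x C T then h.choose else 0

namespace Tor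

variable (h : Tor lam E S c Un a x)
include h

theorem nd' {m : ℕ} (hm : a ≤ m) {T T' : K →L[ℂ] K} (hT : ∀ g, T * x m g = T' * x m g) :
    T = T' := by
  rw [← sub_eq_zero]
  exact h.nd m hm _ fun g => by rw [sub_mul, hT g, sub_self]

theorem uniq {C : Set (Y × G₀)} {T T' : K →L[ℂ] K} (hT : IsZ E a x C T) (hT' : IsZ E a x C T') :
    T = T' := by
  obtain ⟨n, hn, h1⟩ := hT
  obtain ⟨n', hn', h2⟩ := hT'
  refine h.nd' (hn.trans (le_max_left n n')) fun g => ?_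
  rw [(h1 _ (le_max_left _ _) g).1, (h2 _ (le_max_right _ _) g).1]

theorem zt_eq {C : Set (Y × G₀)} {T : K →L[ℂ] K} (hT : IsZ E a x C T) : Zt E a x C = T := by
  have hex : ∃ T, IsZ E a x C T := ⟨T, hT⟩
  have h1 : Zt E a x C = hex.choose := dif_pos hex
  rw [h1]
  exact h.uniq hex.choose_spec hT

theorem isZ_zt {C : Set (Y × G₀)} (hex : ∃ T, IsZ E a x C T) : IsZ E a x C (Zt E a x C) := by
  obtain ⟨T, hT⟩ := hex
  rw [h.zt_eq hT]
  exact hT

theorem le' {m M : ℕ} (hm : a ≤ m) (hmM : m ≤ M) (g : G₀) : x M g * x m g = x M g := by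
  have h1 := congrArg star (h.le m M hm hmM g)
  rwa [star_mul, h.sa m hm, h.sa M (hm.trans hmM)] at h1

theorem x_eq {m : ℕ} (hm : a ≤ m) {g g' : G₀} (hg : g⁻¹ * g' ∈ Un m) : x m g' = x m g := by
  have h1 : g' = g * (g⁻¹ * g') := by group
  rw [h1, (h.sh m hm).inv g _ hg]

theorem orth' {m M : ℕ} (hm : a ≤ m) (hmM : m ≤ M) {g g' : G₀} (hg : g⁻¹ * g' ∉ Un m) :
    x m g * x M g' = 0 ∧ x M g' * x m g = 0 := by
  have hg2 : g'⁻¹ * g ∉ Un m := fun h1 => hg (by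
    have h2 := inv_mem h1
    rwa [mul_inv_rev, inv_inv] at h2)
  constructor
  · rw [← h.le m M hm hmM g', ← mul_assoc, h.orth m hm g g' hg, zero_mul]
  · rw [← h.le' hm hmM g', mul_assoc, h.orth m hm g' g hg2, mul_zero]

theorem isZ_mul {C D : Set (Y × G₀)} (hC : IsClopen C) (hD : IsClopen D) {T T' : K →L[ℂ] K}
    (hT : IsZ E a x C T) (hT' : IsZ E a x D T') : IsZ E a x (C ∩ D) (T * T') := by
  obtain ⟨n, hn, h1⟩ := hT
  obtain ⟨n', hn', h2⟩ := hT'
  refine ⟨max n n', hn.trans (le_max_left _ _), fun m hm g => ?_⟩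
  have ham : a ≤ m := hn.trans ((le_max_left _ _).trans hm)
  obtain ⟨h3, h4⟩ := h1 m ((le_max_left _ _).trans hm) g
  obtain ⟨h5, h6⟩ := h2 m ((le_max_right _ _).trans hm) g
  rw [slc_inter hC hD, h.cpv.inf]
  constructor
  · rw [mul_assoc, h5, (h.sh m ham).commE, ← mul_assoc, h3, mul_assoc, ← (h.sh m ham).commE,
      ← mul_assoc]
  · rw [← mul_assoc, h4, mul_assoc, h6, ← mul_assoc]

theorem isZ_star {C : Set (Y × G₀)} {T : K →L[ℂ] K} (hT : IsZ E a x C T) :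
    IsZ E a x C (star T) := by
  obtain ⟨n, hn, h1⟩ := hT
  refine ⟨n, hn, fun m hm g => ?_⟩
  have ham : a ≤ m := hn.trans hm
  have h2 : star (E (slc C g) * x m g) = E (slc C g) * x m g := by
    rw [star_mul, h.sa m ham, h.cpv.sa, (h.sh m ham).commE]
  constructor
  · have h3 := congrArg star (h1 m hm g).2
    rwa [star_mul, h.sa m ham, h2] at h3
  · have h3 := congrArg star (h1 m hm g).1
    rwa [star_mul, h.sa m ham, h2] at h3

theorem isZ_compl {C : Set (Y × G₀)} (hC : IsClopen C) {T : K →L[ℂ] K} (hT : IsZ E a x C T) :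
    IsZ E a x Cᶜ (1 - T) := by
  obtain ⟨n, hn, h1⟩ := hT
  refine ⟨n, hn, fun m hm g => ?_⟩
  rw [slc_compl hC, h.cpv.compl]
  constructor
  · rw [sub_mul, sub_mul, (h1 m hm g).1]
  · rw [mul_sub, sub_mul, (h1 m hm g).2, mul_one, one_mul]

theorem isZ_add {C D : Set (Y × G₀)} (hC : IsClopen C) (hD : IsClopen D) (hCD : Disjoint C D)
    {T T' : K →L[ℂ] K} (hT : IsZ E a x C T) (hT' : IsZ E a x D T') :
    IsZ E a x (C ∪ D) (T + T') := by
  obtain ⟨n, hn, h1⟩ := hT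
  obtain ⟨n', hn', h2⟩ := hT'
  refine ⟨max n n', hn.trans (le_max_left _ _), fun m hm g => ?_⟩
  obtain ⟨h3, h4⟩ := h1 m ((le_max_left _ _).trans hm) g
  obtain ⟨h5, h6⟩ := h2 m ((le_max_right _ _).trans hm) g
  have h7 : Disjoint (slc C g) (slc D g) := by
    rw [disjoint_iff, ← slc_inter hC hD, hCD.inter_eq]
    ext y
    change y ∈ slc ∅ g ↔ False
    rw [mem_slc isClopen_empty]
    simp
  rw [slc_union hC hD, h.cpv.add h7]
  constructor
  · rw [add_mul, add_mul, h3, h5]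
  · rw [mul_add, add_mul, h4, h6]

theorem isZ_E (A : Clopens Y) : IsZ E a x ((A : Set Y) ×ˢ (Set.univ : Set G₀)) (E A) := by
  refine ⟨a, le_rfl, fun m hm g => ?_⟩
  rw [slc_prod]
  exact ⟨rfl, ((h.sh m hm).commE g A).symm⟩

theorem isZ_empty : IsZ E a x (∅ : Set (Y × G₀)) 0 := by
  refine ⟨a, le_rfl, fun m hm g => ?_⟩
  have h1 : slc (∅ : Set (Y × G₀)) g = ⊥ := by
    ext y
    change y ∈ slc ∅ g ↔ False
    rw [mem_slc isClopen_empty]
    simp
  rw [h1, h.cpv.bot]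
  simp

/-- everything that commutes with `E` and the `x m g` commutes with the operators `T` -/
theorem isZ_comm {C : Set (Y × G₀)} {T s : K →L[ℂ] K} (hT : IsZ E a x C T)
    (hs : ∀ A, s * E A = E A * s) (hx : ∀ m, a ≤ m → ∀ g, s * x m g = x m g * s) :
    s * T = T * s := by
  obtain ⟨n, hn, h1⟩ := hT
  refine h.nd' hn fun g => ?_
  rw [mul_assoc, (h1 n le_rfl g).1, mul_assoc T s, hx n hn, ← mul_assoc T, (h1 n le_rfl g).1,
    ← mul_assoc, hs, mul_assoc, hx n hn, ← mul_assoc]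

theorem exists_isZ [IsTopologicalGroup G₀] [T2Space Y] [T2Space G₀] {C : Set (Y × G₀)}
    (hC : IsCompact C) (hCo : IsOpen C) : ∃ T, IsZ E a x C T := by
  classical
  have hCc : IsClopen C := ⟨hC.isClosed, hCo⟩
  obtain ⟨n, hn, hinv⟩ := exists_level h.lev a hC hCo
  have hfin := finite_cosets (V := Un n) (h.lev.opn n) hC
  set F := hfin.toFinset with hF
  refine ⟨∑ q ∈ F, E (slc C q.out) * x n q.out, n, hn, fun m hm g => ?_⟩
  have ham : a ≤ m := hn.trans hm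
  have hmem : (g : G₀ ⧸ Un n) ∉ F → slc C g = ⊥ := by
    intro hg
    ext y
    change y ∈ slc C g ↔ False
    rw [mem_slc hCc]
    refine ⟨fun hy => hg ?_, False.elim⟩
    rw [hF, Set.Finite.mem_toFinset]
    exact ⟨(y, g), hy, rfl⟩
  have hout : (g : G₀ ⧸ Un n).out⁻¹ * g ∈ Un n :=
    QuotientGroup.eq.1 (QuotientGroup.out_eq' _)
  have hx1 : x n (g : G₀ ⧸ Un n).out = x n g := (h.x_eq hn hout).symm
  have hs1 : slc C (g : G₀ ⧸ Un n).out = slc C g := by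
    have h2 : g = (g : G₀ ⧸ Un n).out * ((g : G₀ ⧸ Un n).out⁻¹ * g) := by group
    conv_rhs => rw [h2]
    exact (hinv.slc_eq hout).symm
  have hother : ∀ q ∈ F, q ≠ (g : G₀ ⧸ Un n) → q.out⁻¹ * g ∉ Un n := by
    intro q _ hq h3
    apply hq
    rw [← QuotientGroup.out_eq' q]
    exact QuotientGroup.eq.2 h3
  constructor
  · rw [Finset.sum_mul]
    by_cases hg : (g : G₀ ⧸ Un n) ∈ F
    · rw [Finset.sum_eq_single_of_mem _ hg fun q hq hne => by
        rw [mul_assoc, (h.orth' hn hm (hother q hq hne)).1, mul_zero]]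
      rw [hx1, hs1, mul_assoc, h.le n m hn hm]
    · rw [hmem hg, h.cpv.bot, zero_mul]
      refine Finset.sum_eq_zero fun q hq => ?_
      rw [mul_assoc, (h.orth' hn hm (hother q hq fun e => hg (e ▸ hq))).1, mul_zero]
  · rw [Finset.mul_sum]
    by_cases hg : (g : G₀ ⧸ Un n) ∈ F
    · rw [Finset.sum_eq_single_of_mem _ hg fun q hq hne => by
        rw [← mul_assoc, ← (h.sh m ham).commE, mul_assoc, (h.orth' hn hm (hother q hq hne)).2,
          mul_zero]]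
      rw [hx1, hs1, ← mul_assoc, ← (h.sh m ham).commE, mul_assoc, h.le' hn hm]
    · rw [hmem hg, h.cpv.bot, zero_mul]
      refine Finset.sum_eq_zero fun q hq => ?_
      rw [← mul_assoc, ← (h.sh m ham).commE, mul_assoc,
        (h.orth' hn hm (hother q hq fun e => hg (e ▸ hq))).2, mul_zero]

end Tor

end Vale.Agent.P092.H231
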